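import Vale.Agent.P048.Full.Core

/-!
P048, small cycles: the induction wrapper and the first-levels step shared by the cases `m = 5, 6`.
-/

namespace Vale.Agent.P048.Small

open Finset
open Assembly (HasC HasI Minimal)

/-- The induction hypothesis of a minimal counterexample on small vertex sets. -/
def SmallSets {V : Type*} (G : SimpleGraph V) (m n : ℕ) : Prop :=
  ∀ (S : Finset V) (j : ℕ), j + 1 < n →
    (∀ I ⊆ S, (∀ x ∈ I, ∀ y ∈ I, ¬ G.Adj x y) → #I ≤ j) → #S ≤ (m - 1) * j

/-- If no minimal counterexample exists up to `n`, the upper bound holds at `n`. -/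
theorem upper_of_step {m : ℕ} (hm : 3 ≤ m) (N : ℕ)
    (step : ∀ k, 3 ≤ k → k ≤ N → ∀ (U : Type) [Fintype U] [DecidableEq U] (H : SimpleGraph U)
      [DecidableRel H.Adj], Minimal H m k → SmallSets H m k → False) :
    ∀ n, n ≤ N → ∀ (V : Type) [Fintype V] [DecidableEq V] (G : SimpleGraph V) [DecidableRel G.Adj],
      (m - 1) * (n - 1) < Fintype.card V → HasC G m ∨ HasI G n := by
  intro n
  induction n using Nat.strong_induction_on with
  | _ n ih =>
  intro hnN
  have hno : ∀ k, 3 ≤ k → k ≤ n → ∀ (U : Type) [Fintype U] [DecidableEq U] (H : SimpleGraph U)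
      [DecidableRel H.Adj], ¬ Minimal H m k := by
    intro k h3 hk
    induction k using Nat.strong_induction_on with
    | _ k ihk =>
    intro U _ _ H _ hH
    refine step k h3 (hk.trans hnN) U H hH fun S j hj hSj => ?_
    classical
    by_contra hlt
    rcases Assembly.of_induce H S (Assembly.hasC_or_hasI_of_no_minimal hm (j + 1)
        (fun i hi3 hij => ihk i (by omega) hi3 (by omega)) {x // x ∈ S}
        (H.induce (S : Set U))
        (by rw [Fintype.card_coe]; simpa using (not_le.1 hlt))) with h | ⟨I, hI, hIc, hind⟩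
    · exact hH.noC h
    · have := hSj I hI hind
      omega
  exact Assembly.hasC_or_hasI_of_no_minimal hm n hno

variable {V : Type*} {G : SimpleGraph V}

/-- For `m ∈ {5, 6}`: a bad level among the first two gives `K_4` or a cycle of length `m`. -/
theorem clique_four_or_exact [Fintype V] [DecidableEq V] [DecidableRel G.Adj] {m n : ℕ}
    (hm : m = 5 ∨ m = 6) (hnm : n ≤ m) (hG : Minimal G m n) (hs : SmallSets G m n) (v : V) :
    (∃ D : Finset V, #D = 4 ∧ ∀ a ∈ D, ∀ b ∈ D, a ≠ b → G.Adj a b) ∨
      (m = 5 ∧ ∀ w, G.Adj v w → #(univ.filter fun z => G.Adj v z ∧ G.Adj w z) = 1) := by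
  classical
  have hconn := hG.conn
  obtain ⟨par, hpar⟩ := Full.exists_parent hconn v
  have hstep : ∀ i, i ≤ 2 → ¬ Full.Good G (Full.layer G v i) 2 →
      ∃ D : Finset V, #D = 4 ∧ ∀ a ∈ D, ∀ b ∈ D, a ≠ b → G.Adj a b := by
    intro i hiq hi
    simp only [Full.Good, not_forall, not_le] at hi
    obtain ⟨S, hS, k, hk, hlt⟩ := hi
    have hne : S.Nonempty := card_pos.1 (by omega)
    obtain ⟨I, hI, hIc, hind⟩ := Full.exists_aOn G S
    have hbad : Full.Bad G S 2 0 := ⟨hne, by
      have := Nat.mul_le_mul_left 2 (show Full.aOn G S ≤ k from hIc ▸ hk I hI hind)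
      omega⟩
    have h0 : ∀ T ⊆ S, 2 ≤ #T → 1 ≤ i := fun T hT hT2 => by
      by_contra h
      have hsub : T ⊆ {v} := fun x hx => by
        have := Full.mem_layer.1 (hS (hT hx))
        rw [mem_singleton]
        exact ((hconn.dist_eq_zero_iff).1 (by omega)).symm
      have := card_le_card hsub
      simp at this
      omega
    rcases Full.exists_minimal_bad le_rfl (by omega) (by omega) hbad with ⟨D, hDS, hD, hDc⟩ |
      ⟨B, hBS, hα2, hbb, hd, hc, hcut, hbip⟩
    swap
    · exfalso
      have hb2 : 5 ≤ #B := by omega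
      exact hG.noC (Full.hasC_of_block (G.dist v) par hpar {v}
        (fun u => by rw [mem_singleton, hconn.dist_eq_zero_iff, eq_comm]) (by simp) le_rfl
        (by omega) (by omega) (fun x hx => Full.mem_layer.1 (hS (hBS hx)))
        (h0 B hBS (by omega)) (by omega) (Or.inl (by simp)) (by omega) hd hc hcut hbip)
    have hlev : ∀ x ∈ D, G.dist v x = i := fun x hx => Full.mem_layer.1 (hS (hDS hx))
    have hi1 := h0 D hDS (by omega)
    -- a triangle below one vertex is a clique on four
    by_cases hsame : ∀ a ∈ D, ∀ b ∈ D, par a = par b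
    · obtain ⟨a, ha⟩ := card_pos.1 (show 0 < #D by omega)
      refine ⟨insert (par a) D, ?_, fun x hx y hy hxy => ?_⟩
      · rw [card_insert_of_notMem, hD]
        intro h
        have := (hpar a (by rw [hlev a ha]; omega)).2
        rw [hlev a ha, hlev _ h] at this
        omega
      · have hp : ∀ z ∈ D, G.Adj z (par a) := fun z hz => by
          rw [← hsame z hz a ha]
          exact (hpar z (by rw [hlev z hz]; omega)).1
        rcases mem_insert.1 hx with rfl | hx' <;> rcases mem_insert.1 hy with rfl | hy'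
        · exact absurd rfl hxy
        · exact (hp y hy').symm
        · exact hp x hx'
        · exact hDc x hx' y hy' hxy
    · exfalso
      push Not at hsame
      obtain ⟨a, ha, b, hb, hab⟩ := hsame
      have hne' : a ≠ b := fun e => hab (by rw [e])
      obtain ⟨pa, la⟩ := hpar a (by rw [hlev a ha]; omega)
      obtain ⟨pb, lb⟩ := hpar b (by rw [hlev b hb]; omega)
      rw [hlev a ha] at la
      rw [hlev b hb] at lb
      have hi2 : i = 2 := by
        by_contra h
        exact hab (((hconn.dist_eq_zero_iff).1 (show G.dist v (par a) = 0 by omega)).symm.trans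
          ((hconn.dist_eq_zero_iff).1 (show G.dist v (par b) = 0 by omega)))
      have va : G.Adj v (par a) := SimpleGraph.dist_eq_one_iff_adj.1 (by omega)
      have vb : G.Adj v (par b) := SimpleGraph.dist_eq_one_iff_adj.1 (by omega)
      have e0 : G.dist v v = 0 := SimpleGraph.dist_self
      have d1 : ∀ z ∈ D, z ≠ par a ∧ z ≠ par b ∧ z ≠ v := fun z hz => by
        have := hlev z hz
        refine ⟨fun e => ?_, fun e => ?_, fun e => ?_⟩ <;> rw [e] at this <;> omega
      obtain ⟨a1, a2, a3⟩ := d1 a ha
      obtain ⟨b1, b2, b3⟩ := d1 b hb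
      rcases hm with rfl | rfl
      · refine hG.noC ⟨[a, par a, v, par b, b], ⟨⟨?_, fun z _ => mem_univ z, ?_⟩, by simp, ?_⟩,
          by simp⟩
        · simp [a1, a2, a3, hne', va.ne', hab, b1.symm, b2.symm, b3.symm, vb.ne]
        · simp [pa, va.symm, vb, pb.symm]
        · simpa using hDc b hb a ha hne'.symm
      · obtain ⟨c, hc, hca, hcb⟩ : ∃ c ∈ D, c ≠ a ∧ c ≠ b := by
          by_contra hcon
          push Not at hcon
          have : D ⊆ {a, b} := fun z hz => by
            simp only [mem_insert, mem_singleton]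
            by_cases h : z = a
            · exact Or.inl h
            · exact Or.inr (hcon z hz h)
          have := (card_le_card this).trans card_le_two
          omega
        obtain ⟨c1, c2, c3⟩ := d1 c hc
        refine hG.noC ⟨[a, par a, v, par b, b, c], ⟨⟨?_, fun z _ => mem_univ z, ?_⟩, by simp, ?_⟩,
          by simp⟩
        · simp [a1, a2, a3, hne', va.ne', hab, b1.symm, b2.symm, b3.symm, vb.ne, hca.symm,
            c1.symm, c2.symm, c3.symm, hcb.symm]
        · simp [pa, va.symm, vb, pb.symm, hDc b hb c hc hcb.symm]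
        · simpa using hDc c hc a ha hca
  rcases Full.exists_layer_le hconn (q := 2) le_rfl (by omega) hnm hG.alpha hG.card hs v with
    ⟨i, hiq, hi⟩ | ⟨hm5, hex⟩
  · exact Or.inl (hstep i hiq hi)
  by_cases hgood : Full.Good G (Full.layer G v 1) 2
  swap
  · exact Or.inl (hstep 1 (by omega) hgood)
  refine Or.inr ⟨hm5, fun w hw => ?_⟩
  set L := Full.layer G v 1 with hL
  have hLmem : ∀ z, z ∈ L ↔ G.Adj v z := fun z => by
    rw [hL, Full.mem_layer, SimpleGraph.dist_eq_one_iff_adj]
  have hnd := Full.noDense_of_good hgood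
  obtain ⟨I, hI, hIc, hind⟩ := Full.exists_aOn G L
  have hex' : #L = 2 * Full.aOn G L := le_antisymm (hnd L subset_rfl) (hIc ▸ hex I hI hind)
  have hwL := (hLmem w).2 hw
  set C := Full.compIn G L w with hC
  have hwC : w ∈ C := Full.mem_compIn_self hwL
  have hCL : C ⊆ L := Full.compIn_subset
  have hCex := Full.compIn_exact hnd hex' w
  rw [← hC] at hCex
  have hC1 : 1 ≤ Full.aOn G C := Full.aOn_pos ⟨w, hwC⟩
  rcases hC1.eq_or_lt with h1 | h2
  · have hcl := Full.clique_of_aOn_le_one h1.ge
    have hset : univ.filter (fun z => G.Adj v z ∧ G.Adj w z) = C.erase w := by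
      ext z
      simp only [mem_filter, mem_univ, true_and, mem_erase]
      constructor
      · exact fun h => ⟨h.2.ne', Full.compIn_closed hwC ((hLmem z).2 h.1) h.2⟩
      · exact fun h => ⟨(hLmem z).1 (hCL h.2), hcl w hwC z h.2 h.1.symm⟩
    rw [hset, card_erase_of_mem hwC]
    omega
  · exfalso
    obtain ⟨l, hl, hlen⟩ := Full.exact_path C Full.compIn_connected (hnd.mono hCL) hCex h2
    set l' := l.take 4 with hl'
    have hlen' : l'.length = 4 := by rw [hl', List.length_take]; omega
    have hsub : List.Sublist l' l := List.take_sublist _ _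
    have hne : l' ≠ [] := by intro h; simp [h] at hlen'
    have hvL : v ∉ L := fun h => G.irrefl ((hLmem v).1 h)
    refine hG.noC ⟨v :: l', ⟨⟨List.nodup_cons.2 ⟨fun h => hvL (hCL (hl.2.1 _ (hsub.subset h))),
      hl.1.sublist hsub⟩, fun x _ => mem_univ x, ?_⟩, by simp, ?_⟩, by simp [hlen']; omega⟩
    · rw [List.isChain_cons]
      exact ⟨fun z hz => (hLmem z).1 (hCL (hl.2.1 _ (hsub.subset (List.mem_of_mem_head? hz)))),
        hl.2.2.take _⟩
    · rw [List.getLast_cons hne, List.head_cons]
      exact ((hLmem _).1 (hCL (hl.2.1 _ (hsub.subset (List.getLast_mem hne))))).symm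

end Vale.Agent.P048.Small
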