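import Vale.Agent.P048.Small.Clique
import Vale.Agent.P048.Small.Step

/-!
P048: the case `m = 4`.  A triangle is excluded by `no_clique_pred`; without one, two second
neighbours and two first neighbours of a vertex are independent.
-/

namespace Vale.Agent.P048.Small

open Finset
open Assembly (HasC HasI Minimal)

/-- No minimal counterexample for `m = 4`. -/
theorem no_minimal_four {V : Type*} [Fintype V] [DecidableEq V] {G : SimpleGraph V}
    [DecidableRel G.Adj] {n : ℕ} (hn : n ≤ 4) (hG : Minimal G 4 n) : False := by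
  classical
  by_cases htri : ∃ a b c, G.Adj a b ∧ G.Adj b c ∧ G.Adj a c
  · obtain ⟨a, b, c, hab, hbc, hac⟩ := htri
    refine no_clique_pred le_rfl hn hG.noC hG.alpha hG.card hG.deg (D := {a, b, c})
      (card_eq_three.2 ⟨a, b, c, hab.ne, hac.ne, hbc.ne, rfl⟩) fun x hx y hy hxy => ?_
    simp only [mem_insert, mem_singleton] at hx hy
    rcases hx with rfl | rfl | rfl <;> rcases hy with rfl | rfl | rfl <;>
      first | exact absurd rfl hxy | assumption | exact SimpleGraph.Adj.symm (by assumption)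
  have htf : ∀ {a b c}, G.Adj a b → G.Adj b c → ¬ G.Adj a c := fun h1 h2 h3 =>
    htri ⟨_, _, _, h1, h2, h3⟩
  obtain ⟨v⟩ := hG.conn.nonempty
  obtain ⟨T, hT, hTc⟩ := exists_subset_card_eq (hG.deg v)
  have hv : ∀ z ∈ T, G.Adj v z := fun z hz => (mem_filter.1 (hT hz)).2
  obtain ⟨u, hu⟩ := card_pos.1 (show 0 < #T by omega)
  obtain ⟨C, hC, hCc⟩ := exists_subset_card_eq (s := (univ.filter (G.Adj u)).erase v) (n := 2) (by
    rw [card_erase_of_mem (by simp [(hv u hu).symm])]
    have := hG.deg u
    omega)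
  have hu' : ∀ z ∈ C, G.Adj u z ∧ z ≠ v := fun z hz => by
    have := hC hz
    simp only [mem_erase, mem_filter] at this
    exact ⟨this.2.2, this.1⟩
  have hCT : ∀ c ∈ C, ∀ w ∈ T.erase u, ¬ G.Adj c w := by
    intro c hc w hw h
    obtain ⟨huc, hcv⟩ := hu' c hc
    have hvw := hv w (mem_of_mem_erase hw)
    have huw : u ≠ w := (ne_of_mem_erase hw).symm
    refine hG.noC ⟨[v, u, c, w], ⟨⟨?_, fun z _ => mem_univ z, ?_⟩, by simp, ?_⟩, by simp⟩
    · simp [(hv u hu).ne, hcv.symm, hvw.ne, huc.ne, huw, h.ne]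
    · simp [hv u hu, huc, h]
    · simpa using hvw.symm
  have hdis : Disjoint C (T.erase u) := disjoint_left.2 fun c hc hc' =>
    htf (hv u hu).symm (hv c (mem_of_mem_erase hc')) (hu' c hc).1
  have := hG.alpha (C ∪ T.erase u) fun a ha b hb => by
    rcases mem_union.1 ha with ha | ha <;> rcases mem_union.1 hb with hb | hb
    · exact fun h => htf (hu' a ha).1 h (hu' b hb).1
    · exact hCT a ha b hb
    · exact fun h => hCT b hb a ha h.symm
    · exact fun h => htf (hv a (mem_of_mem_erase ha)) h (hv b (mem_of_mem_erase hb))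
  rw [card_union_of_disjoint hdis, card_erase_of_mem hu, hCc] at this
  omega

/-- The upper bound for `m = 4`. -/
theorem upper_four {n : ℕ} (hn : n ≤ 4) (V : Type) [Fintype V] [DecidableEq V]
    (G : SimpleGraph V) [DecidableRel G.Adj] (hcard : (4 - 1) * (n - 1) < Fintype.card V) :
    HasC G 4 ∨ HasI G n :=
  upper_of_step (by omega) 4 (fun _ _ hk _ _ _ _ _ hH _ => no_minimal_four hk hH) n hn V G hcard

end Vale.Agent.P048.Small
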