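import Vale.Agent.P048.Small.Clique
import Vale.Agent.P048.Small.Step

/-!
P048: the case `m = 5`.  Without `K_4` every neighbourhood is a perfect matching, and one child of
each neighbour of a vertex `v` gives, with `v`, an independent set of five vertices.
-/

namespace Vale.Agent.P048.Small

open Finset
open Assembly (HasC HasI Minimal)

/-- No minimal counterexample for `m = 5`. -/
theorem no_minimal_five {V : Type*} [Fintype V] [DecidableEq V] {G : SimpleGraph V}
    [DecidableRel G.Adj] {n : ℕ} (hn : n ≤ 5) (hG : Minimal G 5 n) (hs : SmallSets G 5 n) :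
    False := by
  classical
  by_cases hK : ∃ D : Finset V, #D = 4 ∧ ∀ a ∈ D, ∀ b ∈ D, a ≠ b → G.Adj a b
  · obtain ⟨D, hD, hDc⟩ := hK
    exact no_clique_pred (by omega) hn hG.noC hG.alpha hG.card hG.deg hD hDc
  have hmatch : ∀ v w, G.Adj v w → #(univ.filter fun z => G.Adj v z ∧ G.Adj w z) = 1 := fun v =>
    ((clique_four_or_exact (Or.inl rfl) hn hG hs v).resolve_left hK).2
  have huniq : ∀ {v w a b}, G.Adj v w → G.Adj v a → G.Adj w a → G.Adj v b → G.Adj w b → a = b :=
    fun h h1 h2 h3 h4 =>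
      card_le_one.1 (hmatch _ _ h).le _ (by simp [h1, h2]) _ (by simp [h3, h4])
  obtain ⟨v⟩ := hG.conn.nonempty
  set L := univ.filter (G.Adj v) with hL
  have hchild : ∀ u ∈ L, ∃ c, G.Adj u c ∧ c ≠ v ∧ ¬ G.Adj v c := by
    intro u hu
    have hvu : G.Adj v u := (mem_filter.1 hu).2
    by_contra hcon
    push Not at hcon
    have hsub : univ.filter (G.Adj u) ⊆
        insert v (univ.filter fun z => G.Adj v z ∧ G.Adj u z) := fun c hc => by
      rw [mem_filter] at hc
      by_cases hcv : c = v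
      · simp [hcv]
      · exact mem_insert_of_mem (mem_filter.2 ⟨mem_univ _, hcon c hc.2 hcv, hc.2⟩)
    have := (hG.deg u).trans ((card_le_card hsub).trans (card_insert_le _ _))
    rw [hmatch v u hvu] at this
    omega
  choose! c hc1 hc2 hc3 using hchild
  have hL4 : 4 ≤ #L := hG.deg v
  have hvL : ∀ u ∈ L, G.Adj v u := fun u hu => (mem_filter.1 hu).2
  -- five-cycles from an edge below two different neighbours
  have hfive : ∀ u u' a b, G.Adj v u → G.Adj v u' → u ≠ u' → G.Adj u a → G.Adj u' b → a ≠ v →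
      b ≠ v → ¬ G.Adj v a → ¬ G.Adj v b → ¬ G.Adj a b := by
    intro u u' a b hu hu' hne ha hb hav hbv hna hnb h
    have e1 : a ≠ u' := fun e => hna (e ▸ hu')
    have e2 : b ≠ u := fun e => hnb (e ▸ hu)
    refine hG.noC ⟨[a, u, v, u', b], ⟨⟨?_, fun z _ => mem_univ z, ?_⟩, by simp, ?_⟩, by simp⟩
    · simp [ha.ne', hav, e1, h.ne, hu.ne', hne, e2.symm, hu'.ne, hbv.symm, hb.ne]
    · simp [ha.symm, hu.symm, hu', hb]
    · simpa using h.symm
  have hinj : Set.InjOn c L := by
    intro u hu u' hu' he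
    rw [mem_coe] at hu hu'
    by_contra hne
    -- the partner of the common child in `N(u)`
    obtain ⟨c₂, hc₂⟩ := card_pos.1 (show 0 < #(univ.filter fun z =>
      G.Adj u z ∧ G.Adj (c u) z) by rw [hmatch u (c u) (hc1 u hu)]; omega)
    rw [mem_filter] at hc₂
    obtain ⟨-, huc₂, hcc₂⟩ := hc₂
    have hv2 : c₂ ≠ v := fun e => hc3 u hu (e ▸ hcc₂.symm)
    have hnv : ¬ G.Adj v c₂ := fun h =>
      hc2 u hu (huniq huc₂ (hc1 u hu) hcc₂.symm (hvL u hu).symm h.symm)
    exact hfive u u' c₂ (c u) (hvL u hu) (hvL u' hu') hne huc₂ (he ▸ hc1 u' hu') hv2 (hc2 u hu)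
      hnv (hc3 u hu) hcc₂.symm
  have := hG.alpha (insert v (L.image c)) (Full.indep_insert (indep_image fun u hu u' hu' hne =>
    hfive u u' _ _ (hvL u hu) (hvL u' hu') hne (hc1 u hu) (hc1 u' hu') (hc2 u hu) (hc2 u' hu')
      (hc3 u hu) (hc3 u' hu')) fun z hz => by
    obtain ⟨u, hu, rfl⟩ := mem_image.1 hz
    exact hc3 u hu)
  rw [card_insert_of_notMem, card_image_of_injOn hinj] at this
  · omega
  · intro h
    obtain ⟨u, hu, e⟩ := mem_image.1 h
    exact hc2 u hu e

/-- The upper bound for `m = 5`. -/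
theorem upper_five {n : ℕ} (hn : n ≤ 5) (V : Type) [Fintype V] [DecidableEq V]
    (G : SimpleGraph V) [DecidableRel G.Adj] (hcard : (5 - 1) * (n - 1) < Fintype.card V) :
    HasC G 5 ∨ HasI G n :=
  upper_of_step (by omega) 5 (fun _ _ hk _ _ _ _ _ hH hs => no_minimal_five hk hH hs) n hn V G
    hcard

end Vale.Agent.P048.Small
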