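import Vale.Agent.P048.Small.Clique
import Vale.Agent.P048.Small.Step

/-!
P048: the case `m = 6`.  The outside neighbours of a `K_4` fall into at least four atoms (private
classes and single vertices seen by several clique vertices); the parts of the graph belonging to
different atoms are anticomplete, and counting them gives too few vertices.
-/

namespace Vale.Agent.P048.Small

open Finset
open Assembly (HasC HasI Minimal)
open Full (aOn exists_aOn card_le_aOn indep_insert)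

variable {V : Type*} [Fintype V] [DecidableEq V] {G : SimpleGraph V} [DecidableRel G.Adj]

/-- No clique on five vertices. -/
def NoFive (G : SimpleGraph V) : Prop :=
  ∀ K : Finset V, #K = 5 → ¬ ∀ a ∈ K, ∀ b ∈ K, a ≠ b → G.Adj a b

omit [DecidableEq V] [DecidableRel G.Adj] in
theorem card_clique_le (hK : NoFive G) {S : Finset V}
    (hS : ∀ a ∈ S, ∀ b ∈ S, a ≠ b → G.Adj a b) : #S ≤ 4 := by
  by_contra hlt
  obtain ⟨K, hKS, hKc⟩ := exists_subset_card_eq (show 5 ≤ #S by omega)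
  exact hK K hKc fun a ha b hb => hS a (hKS ha) b (hKS hb)

omit [DecidableRel G.Adj] in
theorem card_le_four_of_aOn (hK : NoFive G) {S : Finset V} (hS : aOn G S ≤ 1) : #S ≤ 4 :=
  card_clique_le hK (Full.clique_of_aOn_le_one hS)

/-- The atom of an outside neighbour `w` of `D`: its only neighbour in `D`, or `w` itself. -/
noncomputable def atom (G : SimpleGraph V) [DecidableRel G.Adj] (D : Finset V) (w : V) : V :=
  open Classical in
  if h : ∃ x, D.filter (G.Adj w) = {x} then h.choose else w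

theorem atom_eq_of_singleton {D : Finset V} {w x : V} (h : D.filter (G.Adj w) = {x}) :
    atom G D w = x := by
  have he : ∃ y, D.filter (G.Adj w) = {y} := ⟨x, h⟩
  rw [atom, dif_pos he]
  exact singleton_injective (he.choose_spec.symm.trans h)

theorem atom_eq_self {D : Finset V} {w : V} (h : #(D.filter (G.Adj w)) ≠ 1) :
    atom G D w = w := by
  rw [atom, dif_neg]
  rintro ⟨x, hx⟩
  rw [hx, card_singleton] at h
  exact h rfl

/-- Either two clique vertices below the two ends, or one common private vertex. -/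
theorem atom_cases {D : Finset V} {w w' : V} (hw : ∃ x ∈ D, G.Adj w x)
    (hw' : ∃ x ∈ D, G.Adj w' x) (h : atom G D w ≠ atom G D w' ∨
      1 < #(D.filter (G.Adj w)) ∨ 1 < #(D.filter (G.Adj w'))) :
    ∃ x ∈ D, ∃ y ∈ D, x ≠ y ∧ G.Adj w x ∧ G.Adj w' y := by
  by_contra hcon
  push Not at hcon
  obtain ⟨x, hx, hwx⟩ := hw
  obtain ⟨y, hy, hwy⟩ := hw'
  have hall : ∀ z ∈ D, G.Adj w z → z = y := fun z hz hwz => by
    by_contra hne; exact hcon z hz y hy hne hwz hwy
  have hall' : ∀ z ∈ D, G.Adj w' z → z = x := fun z hz hwz => by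
    by_contra hne; exact hcon x hx z hz (Ne.symm hne) hwx hwz
  have exy := hall x hx hwx
  subst exy
  have e1 : D.filter (G.Adj w) = {x} := by
    ext z; simp only [mem_filter, mem_singleton]
    exact ⟨fun hz => hall z hz.1 hz.2, fun hz => hz ▸ ⟨hx, hwx⟩⟩
  have e2 : D.filter (G.Adj w') = {x} := by
    ext z; simp only [mem_filter, mem_singleton]
    exact ⟨fun hz => hall' z hz.1 hz.2, fun hz => hz ▸ ⟨hx, hwy⟩⟩
  rw [atom_eq_of_singleton e1, atom_eq_of_singleton e2, e1, e2, card_singleton] at h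
  simp at h

/-- Outer paths between different atoms. -/
theorem atom_link (hnoC : ¬ HasC G 6) {D : Finset V} (hD : #D = 4)
    (hDc : ∀ a ∈ D, ∀ b ∈ D, a ≠ b → G.Adj a b) {w w' : V} (hw : w ∉ D) (hw' : w' ∉ D)
    (hwD : ∃ x ∈ D, G.Adj w x) (hwD' : ∃ x ∈ D, G.Adj w' x) (hne : atom G D w ≠ atom G D w') :
    ¬ G.Adj w w' ∧ (∀ r, r ∉ D → G.Adj r w → ¬ G.Adj r w') ∧
      ∀ r r', r ∉ D → r' ∉ D → (∀ x ∈ D, ¬ G.Adj r x) → (∀ x ∈ D, ¬ G.Adj r' x) →
        G.Adj r w → G.Adj r' w' → ¬ G.Adj r r' := by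
  have hww : w ≠ w' := fun e => hne (by rw [e])
  obtain ⟨x, hx, y, hy, hxy, hwx, hwy⟩ := atom_cases hwD hwD' (Or.inl hne)
  refine ⟨fun h => ?_, fun r hr hrw hrw' => ?_, fun r r' hr hr' hrn hrn' hrw hrw' h => ?_⟩
  · exact hnoC (hasC_of_arc hDc hx hy hxy [w, w'] (by simp) (by simp [hww]) (by simp [hw, hw'])
      (by simp [hwx.symm, h, hwy]) (by simp) (by simp; omega))
  · exact hnoC (hasC_of_arc hDc hx hy hxy [w, r, w'] (by simp)
      (by simp [hrw.ne', hrw'.ne, hww]) (by simp [hw, hr, hw'])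
      (by simp [hwx.symm, hrw.symm, hrw', hwy]) (by simp) (by simp; omega))
  · have e1 : w ≠ r' := fun e => hrn' x hx (e ▸ hwx)
    have e2 : r ≠ w' := fun e => hrn y hy (e ▸ hwy)
    exact hnoC (hasC_of_arc hDc hx hy hxy [w, r, r', w'] (by simp)
      (by simp [hrw.ne', e1, hww, h.ne, e2, hrw'.ne]) (by simp [hw, hr, hr', hw'])
      (by simp [hwx.symm, hrw.symm, h, hrw', hwy]) (by simp) (by simp; omega))

/-- The outside neighbours of `D` inside `S`. -/
noncomputable def outIn (G : SimpleGraph V) (S D : Finset V) : Finset V :=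
  open Classical in S.filter fun w => w ∉ D ∧ ∃ x ∈ D, G.Adj w x

theorem mem_outIn {S D : Finset V} {w : V} :
    w ∈ outIn G S D ↔ w ∈ S ∧ w ∉ D ∧ ∃ x ∈ D, G.Adj w x := by
  classical
  simp [outIn]

/-- There are at least four atoms. -/
theorem four_atoms (hnoC : ¬ HasC G 6) {S D : Finset V} (hD : #D = 4)
    (hDc : ∀ a ∈ D, ∀ b ∈ D, a ≠ b → G.Adj a b)
    (hdeg : ∀ x ∈ D, 5 ≤ #(S.filter (G.Adj x))) :
    4 ≤ #((outIn G S D).image (atom G D)) := by
  classical
  set W := outIn G S D with hW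
  have hmem : ∀ w, w ∈ W ↔ w ∈ S ∧ w ∉ D ∧ ∃ x ∈ D, G.Adj w x := by simp [hW, outIn]
  set M := W.filter fun w => 1 < #(D.filter (G.Adj w)) with hM
  have hout : ∀ x ∈ D, 2 ≤ #(W.filter (G.Adj x)) := by
    intro x hx
    have hsub : S.filter (G.Adj x) ⊆ D.erase x ∪ W.filter (G.Adj x) := fun z hz => by
      rw [mem_filter] at hz
      by_cases hzD : z ∈ D
      · exact mem_union_left _ (mem_erase.2 ⟨hz.2.ne', hzD⟩)
      · exact mem_union_right _
          (mem_filter.2 ⟨(hmem z).2 ⟨hz.1, hzD, x, hx, hz.2.symm⟩, hz.2⟩)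
    have := (hdeg x hx).trans ((card_le_card hsub).trans (card_union_le _ _))
    rw [card_erase_of_mem hx, hD] at this
    omega
  have hpriv : ∀ x ∈ D, (∃ w ∈ W, G.Adj x w ∧ w ∉ M) → x ∈ W.image (atom G D) := by
    rintro x hx ⟨w, hw, hxw, hwM⟩
    refine mem_image.2 ⟨w, hw, atom_eq_of_singleton ?_⟩
    have hle : #(D.filter (G.Adj w)) ≤ 1 := by
      by_contra h
      exact hwM (mem_filter.2 ⟨hw, by omega⟩)
    have hxf : x ∈ D.filter (G.Adj w) := mem_filter.2 ⟨hx, hxw.symm⟩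
    exact eq_singleton_iff_unique_mem.2 ⟨hxf, fun z hz => card_le_one.1 hle z hz x hxf⟩
  have hMself : ∀ w ∈ M, w ∈ W.image (atom G D) := fun w hw => by
    rw [mem_filter] at hw
    exact mem_image.2 ⟨w, hw.1, atom_eq_self (by omega)⟩
  have hMD : Disjoint M D := disjoint_left.2 fun w hw => ((hmem w).1 (mem_filter.1 hw).1).2.1
  rcases M.eq_empty_or_nonempty with hM0 | ⟨w, hwM⟩
  · rw [← hD]
    refine card_le_card fun x hx => hpriv x hx ?_
    obtain ⟨z, hz⟩ := card_pos.1 (show 0 < #(W.filter (G.Adj x)) by have := hout x hx; omega)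
    rw [mem_filter] at hz
    exact ⟨z, hz.1, hz.2, by simp [hM0]⟩
  by_cases hone : ∀ w' ∈ M, w' = w
  · rw [← hD]
    refine card_le_card fun x hx => hpriv x hx ?_
    obtain ⟨z, hz, hzw⟩ : ∃ z ∈ W.filter (G.Adj x), z ≠ w := by
      by_contra hcon
      push Not at hcon
      have h1 := card_le_card (show W.filter (G.Adj x) ⊆ {w} from fun z hz => by simp [hcon z hz])
      have := hout x hx
      rw [card_singleton] at h1
      omega
    rw [mem_filter] at hz
    exact ⟨z, hz.1, hz.2, fun h => hzw (hone z h)⟩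
  push Not at hone
  obtain ⟨w', hw'M, hne⟩ := hone
  -- several multiple vertices all sit on one pair
  have hpair : ∀ a ∈ M, ∀ b ∈ M, a ≠ b → ∀ z ∈ D, G.Adj b z → G.Adj a z := by
    intro a ha b hb hab z hz hbz
    by_contra haz
    rw [mem_filter] at ha hb
    obtain ⟨y', hy', hy'z⟩ : ∃ y' ∈ D.filter (G.Adj b), y' ≠ z := exists_mem_ne hb.2 z
    rw [mem_filter] at hy'
    have haD := ((hmem a).1 ha.1).2.1
    have hbD := ((hmem b).1 hb.1).2.1
    have hzy := hDc z hz y' hy'.1 hy'z.symm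
    by_cases hay : G.Adj a y'
    · obtain ⟨x, hx, hxy⟩ := exists_mem_ne ha.2 y'
      rw [mem_filter] at hx
      have hxz : x ≠ z := fun e => haz (e ▸ hx.2)
      obtain ⟨u, hu, hu'⟩ : ∃ u ∈ D, u ∉ ({x, y', z} : Finset V) :=
        exists_mem_notMem_of_card_lt_card (by
          rw [card_eq_three.2 ⟨_, _, _, hxy, hxz, hy'z, rfl⟩, hD]; omega)
      simp only [mem_insert, mem_singleton, not_or] at hu'
      refine hnoC ⟨[x, a, y', b, z, u], ⟨⟨?_, fun _ _ => mem_univ _, ?_⟩, by simp, ?_⟩, by simp⟩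
      · have d1 : ∀ t ∈ D, t ≠ a ∧ t ≠ b := fun t ht => ⟨fun e => haD (e ▸ ht), fun e => hbD (e ▸ ht)⟩
        simp [(d1 x hx.1).1, hxy, (d1 x hx.1).2, hxz, (Ne.symm hu'.1), hay.ne, hab,
          (d1 z hz).1.symm, (d1 u hu).1.symm, (d1 y' hy'.1).2, hy'z, (Ne.symm hu'.2.1),
          hbz.ne, (d1 u hu).2.symm, (Ne.symm hu'.2.2)]
      · simp [hx.2.symm, hay, hy'.2.symm, hbz, hDc z hz u hu (Ne.symm hu'.2.2)]
      · simpa using hDc u hu x hx.1 hu'.1
    · obtain ⟨x, hx, y, hy, hxy⟩ := one_lt_card.1 ha.2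
      rw [mem_filter] at hx hy
      have hxz : x ≠ z := fun e => haz (e ▸ hx.2)
      have hyz : y ≠ z := fun e => haz (e ▸ hy.2)
      have hxy' : x ≠ y' := fun e => hay (e ▸ hx.2)
      have hyy' : y ≠ y' := fun e => hay (e ▸ hy.2)
      refine hnoC ⟨[x, a, y, y', b, z], ⟨⟨?_, fun _ _ => mem_univ _, ?_⟩, by simp, ?_⟩, by simp⟩
      · have d1 : ∀ t ∈ D, t ≠ a ∧ t ≠ b := fun t ht => ⟨fun e => haD (e ▸ ht), fun e => hbD (e ▸ ht)⟩
        simp [(d1 x hx.1).1, hxy, hxy', (d1 x hx.1).2, hxz, hy.2.ne,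
          (d1 y' hy'.1).1.symm, hab, (d1 z hz).1.symm, hyy', (d1 y hy.1).2, hyz,
          (d1 y' hy'.1).2, hy'z, hbz.ne]
      · simp [hx.2.symm, hy.2, hDc y hy.1 y' hy'.1 hyy', hy'.2.symm, hbz]
      · simpa using hDc z hz x hx.1 hxz.symm
  set P := D.filter (G.Adj w) with hPdef
  have hP2 : #P = 2 := by
    refine le_antisymm ?_ (mem_filter.1 hwM).2
    by_contra h3
    obtain ⟨a, b, c, ha, hb, hc, hab, hac, hbc⟩ := two_lt_card_iff.1 (show 2 < #P by omega)
    simp only [hPdef, mem_filter] at ha hb hc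
    have hwD := ((hmem w).1 (mem_filter.1 hwM).1).2.1
    have hw'D := ((hmem w').1 (mem_filter.1 hw'M).1).2.1
    have h' := hpair w' hw'M w hwM hne
    obtain ⟨u, hu, hu'⟩ : ∃ u ∈ D, u ∉ ({a, b, c} : Finset V) :=
      exists_mem_notMem_of_card_lt_card (by
        rw [card_eq_three.2 ⟨_, _, _, hab, hac, hbc, rfl⟩, hD]; omega)
    simp only [mem_insert, mem_singleton, not_or] at hu'
    refine hnoC ⟨[a, w, b, w', c, u], ⟨⟨?_, fun _ _ => mem_univ _, ?_⟩, by simp, ?_⟩, by simp⟩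
    · have d1 : ∀ t ∈ D, t ≠ w ∧ t ≠ w' := fun t ht => ⟨fun e => hwD (e ▸ ht), fun e => hw'D (e ▸ ht)⟩
      simp [(d1 a ha.1).1, hab, (d1 a ha.1).2, hac, (Ne.symm hu'.1), hb.2.ne, hne.symm,
        (d1 c hc.1).1.symm, (d1 u hu).1.symm, (d1 b hb.1).2, hbc, (Ne.symm hu'.2.1),
        (d1 c hc.1).2.symm, (d1 u hu).2.symm, (Ne.symm hu'.2.2)]
    · simp [ha.2.symm, hb.2, (h' b hb.1 hb.2).symm, h' c hc.1 hc.2, hDc c hc.1 u hu (Ne.symm hu'.2.2)]
    · simpa using hDc u hu a ha.1 hu'.1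
  have hsub : M ∪ (D \ P) ⊆ W.image (atom G D) := by
    intro x hx
    rcases mem_union.1 hx with hx | hx
    · exact hMself x hx
    · rw [mem_sdiff] at hx
      refine hpriv x hx.1 ?_
      obtain ⟨z, hz⟩ := card_pos.1 (show 0 < #(W.filter (G.Adj x)) by have := hout x hx.1; omega)
      rw [mem_filter] at hz
      refine ⟨z, hz.1, hz.2, fun hzM => hx.2 (mem_filter.2 ⟨hx.1, ?_⟩)⟩
      by_cases hzw : z = w
      · exact hzw ▸ hz.2.symm
      · exact hpair w hwM z hzM (Ne.symm hzw) x hx.1 hz.2.symm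
  have := card_le_card hsub
  rw [card_union_of_disjoint (hMD.mono_right sdiff_subset),
    card_sdiff_of_subset (filter_subset _ _)] at this
  have : 2 ≤ #M := one_lt_card.2 ⟨w, hwM, w', hw'M, hne.symm⟩
  rw [← hPdef] at *
  omega

/-- One outside neighbour from each atom is an independent set. -/
theorem atom_reps (hnoC : ¬ HasC G 6) {S D : Finset V} (hD : #D = 4)
    (hDc : ∀ a ∈ D, ∀ b ∈ D, a ≠ b → G.Adj a b) {K : Finset V}
    (hKs : K ⊆ (outIn G S D).image (atom G D)) :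
    ∃ I ⊆ outIn G S D, #I = #K ∧ (∀ a ∈ I, ∀ b ∈ I, ¬ G.Adj a b) ∧
      ∀ a ∈ I, atom G D a ∈ K := by
  classical
  have hex : ∀ k ∈ K, ∃ w ∈ outIn G S D, atom G D w = k := fun k hk => mem_image.1 (hKs hk)
  choose! f hf hfa using hex
  refine ⟨K.image f, image_subset_iff.2 hf, card_image_of_injOn fun a ha b hb e => ?_,
    indep_image fun i hi j hj hij => ?_, fun a ha => ?_⟩
  · rw [← hfa a ha, e, hfa b hb]
  · have h1 := hf i hi
    have h2 := hf j hj
    simp only [outIn, mem_filter] at h1 h2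
    exact (atom_link hnoC hD hDc h1.2.1 h2.2.1 h1.2.2 h2.2.2 (by rwa [hfa i hi, hfa j hj])).1
  · obtain ⟨k, hk, rfl⟩ := mem_image.1 ha
    rwa [hfa k hk]

/-- A set without `K_5` and with independence number two has at most nine vertices. -/
theorem card_le_nine (hnoC : ¬ HasC G 6) (hK : NoFive G) {S : Finset V} (hS : aOn G S ≤ 2) :
    #S ≤ 9 := by
  classical
  by_contra hlt
  have hnon : ∀ x ∈ S, ∀ a ∈ S, ∀ b ∈ S, x ≠ a → ¬ G.Adj x a → x ≠ b → ¬ G.Adj x b → a ≠ b →
      G.Adj a b := by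
    intro x hx a ha b hb hxa hna hxb hnb hab
    by_contra h
    have := card_le_aOn (G := G) (S := S) (I := {x, a, b}) (by simp [insert_subset_iff, hx, ha, hb])
      (indep_insert (indep_insert (by simp) (by simpa using h)) (by simp [hna, hnb]))
    rw [card_eq_three.2 ⟨x, a, b, hxa, hxb, hab, rfl⟩] at this
    omega
  let Q : V → Finset V := fun x => (S.erase x).filter fun z => ¬ G.Adj x z
  have hQc : ∀ x ∈ S, ∀ a ∈ Q x, ∀ b ∈ Q x, a ≠ b → G.Adj a b := fun x hx a ha b hb => by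
    simp only [Q, mem_filter, mem_erase] at ha hb
    exact hnon x hx a ha.1.2 b hb.1.2 ha.1.1.symm ha.2 hb.1.1.symm hb.2
  have hQsum : ∀ x ∈ S, #(Q x) + #(S.filter (G.Adj x)) + 1 = #S := by
    intro x hx
    have h := card_filter_add_card_filter_not (s := S.erase x) (fun z => G.Adj x z)
    rw [card_erase_of_mem hx] at h
    have e : (S.erase x).filter (fun z => G.Adj x z) = S.filter (G.Adj x) := by
      ext z; simp only [mem_filter, mem_erase]
      exact ⟨fun h => ⟨h.1.2, h.2⟩, fun h => ⟨⟨h.2.ne', h.1⟩, h.2⟩⟩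
    rw [e] at h
    have := card_pos.2 ⟨x, hx⟩
    simp only [Q]
    omega
  obtain ⟨D, hDS, hD, hDc⟩ : ∃ D ⊆ S, #D = 4 ∧ ∀ a ∈ D, ∀ b ∈ D, a ≠ b → G.Adj a b := by
    by_cases h4 : ∃ x ∈ S, 4 ≤ #(Q x)
    · obtain ⟨x, hx, h⟩ := h4
      obtain ⟨D, hDQ, hDc'⟩ := exists_subset_card_eq h
      exact ⟨D, fun z hz => mem_of_mem_erase (mem_filter.1 (hDQ hz)).1, hDc',
        fun a ha b hb => hQc x hx a (hDQ ha) b (hDQ hb)⟩
    push Not at h4
    obtain ⟨x, hx⟩ := card_pos.1 (show 0 < #S by omega)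
    set N := S.filter (G.Adj x) with hN
    have hN6 : 6 ≤ #N := by have := hQsum x hx; have := h4 x hx; simp only [← hN] at *; omega
    obtain ⟨y, hy⟩ := card_pos.1 (show 0 < #N by omega)
    have hys := mem_filter.1 hy
    -- a triangle in `N`
    obtain ⟨a, b, c, ha, hb, hc, hab, hac, hbc⟩ :
        ∃ a b c, a ∈ N ∧ b ∈ N ∧ c ∈ N ∧ G.Adj a b ∧ G.Adj a c ∧ G.Adj b c := by
      have hsplit := card_filter_add_card_filter_not (s := N.erase y) (fun z => G.Adj y z)
      rw [card_erase_of_mem hy] at hsplit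
      rcases le_or_gt 3 #((N.erase y).filter fun z => G.Adj y z) with h | h
      · obtain ⟨a, b, c, ha, hb, hc, hab, hac, hbc⟩ := two_lt_card_iff.1 h
        simp only [mem_filter, mem_erase] at ha hb hc
        by_cases h1 : G.Adj a b
        · exact ⟨y, a, b, hy, ha.1.2, hb.1.2, ha.2, hb.2, h1⟩
        by_cases h2 : G.Adj a c
        · exact ⟨y, a, c, hy, ha.1.2, hc.1.2, ha.2, hc.2, h2⟩
        exact ⟨y, b, c, hy, hb.1.2, hc.1.2, hb.2, hc.2, hnon a (mem_filter.1 ha.1.2).1 b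
          (mem_filter.1 hb.1.2).1 c (mem_filter.1 hc.1.2).1 hab h1 hac h2 hbc⟩
      · obtain ⟨a, b, c, ha, hb, hc, hab, hac, hbc⟩ := two_lt_card_iff.1
          (show 2 < #((N.erase y).filter fun z => ¬ G.Adj y z) by omega)
        simp only [mem_filter, mem_erase] at ha hb hc
        have hmS : ∀ z, z ∈ N → z ∈ S := fun z hz => (mem_filter.1 hz).1
        have hq : ∀ z z', (z ≠ y ∧ z ∈ N) ∧ ¬ G.Adj y z → (z' ≠ y ∧ z' ∈ N) ∧ ¬ G.Adj y z' →
            z ≠ z' → G.Adj z z' := fun z z' hz hz' h' => hnon y (hmS _ hy) z (hmS _ hz.1.2) z'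
          (hmS _ hz'.1.2) hz.1.1.symm hz.2 hz'.1.1.symm hz'.2 h'
        exact ⟨a, b, c, ha.1.2, hb.1.2, hc.1.2, hq a b ha hb hab, hq a c ha hc hac,
          hq b c hb hc hbc⟩
    rw [hN, mem_filter] at ha hb hc
    refine ⟨{x, a, b, c}, by simp [insert_subset_iff, hx, ha.1, hb.1, hc.1], ?_, ?_⟩
    · rw [card_insert_of_notMem (by simp [ha.2.ne, hb.2.ne, hc.2.ne]),
        card_eq_three.2 ⟨a, b, c, hab.ne, hac.ne, hbc.ne, rfl⟩]
    · intro p hp r hr hpr
      simp only [mem_insert, mem_singleton] at hp hr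
      rcases hp with rfl | rfl | rfl | rfl <;> rcases hr with rfl | rfl | rfl | rfl <;>
        first
          | exact absurd rfl hpr
          | assumption
          | exact SimpleGraph.Adj.symm (by assumption)
          | exact ha.2 | exact hb.2 | exact hc.2
          | exact ha.2.symm | exact hb.2.symm | exact hc.2.symm
  have hdeg : ∀ x ∈ D, 5 ≤ #(S.filter (G.Adj x)) := fun x hx => by
    have := hQsum x (hDS hx)
    have := card_clique_le hK (hQc x (hDS hx))
    omega
  have h4 := four_atoms hnoC hD hDc hdeg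
  obtain ⟨I, hI, hIc, hIi, -⟩ := atom_reps (S := S) hnoC hD hDc subset_rfl
  have := card_le_aOn (G := G) (S := S) (fun z hz => (mem_outIn.1 (hI hz)).1) hIi
  omega

/-- No minimal counterexample for `m = 6`. -/
theorem no_minimal_six {n : ℕ} (hn : n ≤ 6) (hG : Minimal G 6 n) (hs : SmallSets G 6 n) :
    False := by
  classical
  by_cases h5 : NoFive G
  swap
  · unfold NoFive at h5
    push Not at h5
    obtain ⟨K, hK, hKc⟩ := h5
    exact no_clique_pred (by omega) hn hG.noC hG.alpha hG.card hG.deg hK hKc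
  obtain ⟨v⟩ := hG.conn.nonempty
  obtain ⟨D, hD, hDc⟩ | ⟨h, -⟩ := clique_four_or_exact (Or.inr rfl) hn hG hs v
  swap
  · omega
  set W := outIn G univ D with hW
  have hWmem : ∀ w, w ∈ W ↔ w ∉ D ∧ ∃ x ∈ D, G.Adj w x := by simp [hW, outIn]
  set K := W.image (atom G D) with hKdef
  have hK4 : 4 ≤ #K := four_atoms hG.noC hD hDc fun x _ => hG.deg x
  set R := univ \ (D ∪ W) with hR
  have hRmem : ∀ r, r ∈ R → r ∉ D ∧ ∀ x ∈ D, ¬ G.Adj r x := by
    intro r hr
    simp only [hR, mem_sdiff, mem_union, hWmem, not_or, not_and, not_exists] at hr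
    exact ⟨hr.2.1, fun x hx => hr.2.2 hr.2.1 x hx⟩
  set R0 := R.filter fun r => ∀ w ∈ W, ¬ G.Adj r w with hR0
  -- the part of an atom
  let C : V → Finset V := fun k => W.filter (fun w => atom G D w = k) ∪
    R.filter (fun r => ∃ w ∈ W, atom G D w = k ∧ G.Adj r w)
  have hlink := fun {w w' : V} (hw : w ∈ W) (hw' : w' ∈ W) (h : atom G D w ≠ atom G D w') =>
    atom_link hG.noC hD hDc ((hWmem w).1 hw).1 ((hWmem w').1 hw').1 ((hWmem w).1 hw).2
      ((hWmem w').1 hw').2 h
  have hCC : ∀ k k', k ≠ k' → ∀ a ∈ C k, ∀ b ∈ C k', a ≠ b ∧ ¬ G.Adj a b := by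
    intro k k' hkk a ha b hb
    simp only [C, mem_union, mem_filter] at ha hb
    rcases ha with ⟨haW, rfl⟩ | ⟨haR, w, hw, rfl, haw⟩ <;>
      rcases hb with ⟨hbW, rfl⟩ | ⟨hbR, w', hw', rfl, hbw⟩
    · exact ⟨fun e => hkk (by rw [e]), (hlink haW hbW hkk).1⟩
    · refine ⟨fun e => ?_, fun h => (hlink haW hw' hkk).2.1 b (hRmem b hbR).1 h.symm hbw⟩
      obtain ⟨x, hx, hax⟩ := ((hWmem a).1 haW).2
      exact (hRmem b hbR).2 x hx (e ▸ hax)
    · refine ⟨fun e => ?_, fun h => (hlink hw hbW hkk).2.1 a (hRmem a haR).1 haw h⟩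
      obtain ⟨x, hx, hbx⟩ := ((hWmem b).1 hbW).2
      exact (hRmem a haR).2 x hx (e ▸ hbx)
    · exact ⟨fun e => (hlink hw hw' hkk).2.1 a (hRmem a haR).1 haw (e ▸ hbw),
        fun h => (hlink hw hw' hkk).2.2 a b (hRmem a haR).1 (hRmem b hbR).1 (hRmem a haR).2
          (hRmem b hbR).2 haw hbw h⟩
  have hCW : ∀ w ∈ W, w ∈ C (atom G D w) := fun w hw => by simp [C, hw]
  -- independent sets in one part extend by representatives of the others
  have hext : ∀ X : Finset V, X ⊆ K → ∀ I : Finset V,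
      (∀ a ∈ I, ∀ b ∈ I, ¬ G.Adj a b) → (∀ a ∈ I, a ∈ R0 ∨ ∃ k ∈ X, a ∈ C k) →
      #I + (#K - #X) < n := by
    intro X hX I hI hIm
    obtain ⟨J, hJ, hJc, hJi, hJk⟩ := atom_reps (S := univ) hG.noC hD hDc (K := K \ X) sdiff_subset
    have hsep : ∀ a ∈ I, ∀ b ∈ J, a ≠ b ∧ ¬ G.Adj a b := fun a ha b hb => by
      rcases hIm a ha with h | ⟨k, hk, hak⟩
      · rw [hR0, mem_filter] at h
        refine ⟨fun e => ?_, h.2 b (hJ hb)⟩
        obtain ⟨x, hx, hbx⟩ := ((hWmem b).1 (hJ hb)).2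
        exact (hRmem a h.1).2 x hx (e ▸ hbx)
      · exact hCC k (atom G D b) (fun e => (mem_sdiff.1 (hJk b hb)).2 (e ▸ hk)) a hak b (hCW b (hJ hb))
    have := hG.alpha (I ∪ J) fun a ha b hb => by
      rcases mem_union.1 ha with ha | ha <;> rcases mem_union.1 hb with hb | hb
      · exact hI a ha b hb
      · exact (hsep a ha b hb).2
      · exact fun h => (hsep b hb a ha).2 h.symm
      · exact hJi a ha b hb
    rw [card_union_of_disjoint (disjoint_left.2 fun a ha ha' => (hsep a ha a ha').1 rfl), hJc,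
      card_sdiff_of_subset hX] at this
    exact this
  have hKn : #K < n := by simpa using hext ∅ (empty_subset _) ∅ (by simp) (by simp)
  have hcover : ∀ u : V, u ∈ D ∨ u ∈ R0 ∨ ∃ k ∈ K, u ∈ C k := by
    intro u
    by_cases hu : u ∈ D
    · exact Or.inl hu
    by_cases huW : u ∈ W
    · exact Or.inr (Or.inr ⟨_, mem_image_of_mem _ huW, hCW u huW⟩)
    have huR : u ∈ R := by simp [hR, hu, huW]
    by_cases hu0 : ∀ w ∈ W, ¬ G.Adj u w
    · exact Or.inr (Or.inl (mem_filter.2 ⟨huR, hu0⟩))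
    push Not at hu0
    obtain ⟨w, hw, huw⟩ := hu0
    exact Or.inr (Or.inr ⟨_, mem_image_of_mem _ hw, mem_union_right _
      (mem_filter.2 ⟨huR, w, hw, rfl, huw⟩)⟩)
  have hN := hG.card
  by_cases hbig : ∃ k ∈ K, 2 ≤ aOn G (C k)
  · obtain ⟨k, hk, hk2⟩ := hbig
    have hX : #K - #({k} : Finset V) = #K - 1 := by simp
    obtain ⟨I, hI, hIc, hIi⟩ := exists_aOn G (C k ∪ R0)
    have h1 := hext {k} (by simpa using hk) I hIi fun a ha => by
      rcases mem_union.1 (hI ha) with h | h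
      · exact Or.inr ⟨k, by simp, h⟩
      · exact Or.inl h
    rw [hX, hIc] at h1
    have h2 : 2 ≤ aOn G (C k ∪ R0) := hk2.trans (Full.aOn_mono subset_union_left)
    have hb := card_le_nine hG.noC h5 (S := C k ∪ R0) (by omega)
    have hsmall : ∀ k' ∈ K.erase k, #(C k') ≤ 4 := by
      intro k' hk'
      refine card_le_four_of_aOn h5 ?_
      by_contra hlt
      obtain ⟨A, hA, hAc, hAi⟩ := exists_aOn G (C k)
      obtain ⟨B, hB, hBc, hBi⟩ := exists_aOn G (C k')
      have hne := (ne_of_mem_erase hk').symm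
      have h3 := hext {k, k'} (by simp [insert_subset_iff, hk, mem_of_mem_erase hk']) (A ∪ B)
        (fun a ha b hb => by
          rcases mem_union.1 ha with ha | ha <;> rcases mem_union.1 hb with hb | hb
          · exact hAi a ha b hb
          · exact (hCC k k' hne a (hA ha) b (hB hb)).2
          · exact fun h => (hCC k k' hne b (hA hb) a (hB ha)).2 h.symm
          · exact hBi a ha b hb)
        fun a ha => Or.inr ((mem_union.1 ha).elim (fun h => ⟨k, by simp, hA h⟩)
          fun h => ⟨k', by simp, hB h⟩)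
      rw [card_union_of_disjoint (disjoint_left.2 fun a ha ha' =>
        (hCC k k' hne a (hA ha) a (hB ha')).1 rfl), card_pair hne, hAc, hBc] at h3
      omega
    have hsub : (univ : Finset V) ⊆ D ∪ (C k ∪ R0) ∪ (K.erase k).biUnion C := fun u _ => by
      rcases hcover u with h | h | ⟨k', hk', h⟩
      · simp [h]
      · simp [h]
      · by_cases e : k' = k
        · subst e; simp [h]
        · exact mem_union_right _ (mem_biUnion.2 ⟨k', mem_erase.2 ⟨e, hk'⟩, h⟩)
    have h4 := (card_le_card hsub).trans (card_union_le _ _)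
    have h5' := card_union_le D (C k ∪ R0)
    have h6 := (card_biUnion_le (s := K.erase k) (t := C)).trans (sum_le_sum hsmall)
    rw [sum_const, smul_eq_mul, card_erase_of_mem hk] at h6
    rw [card_univ] at h4
    omega
  · push Not at hbig
    obtain ⟨I, hI, hIc, hIi⟩ := exists_aOn G R0
    have h1 := hext ∅ (empty_subset _) I hIi fun a ha => Or.inl (hI ha)
    simp only [card_empty, Nat.sub_zero, hIc] at h1
    have hR0c : #R0 ≤ 4 * aOn G R0 := by
      rcases Nat.eq_zero_or_pos (aOn G R0) with h0 | h0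
      · have : R0 = ∅ := by
          by_contra hne
          have := Full.aOn_pos (G := G) (nonempty_iff_ne_empty.2 hne)
          omega
        simp [this]
      · have := card_le_four_of_aOn h5 (S := R0) (by omega)
        omega
    have hsub : (univ : Finset V) ⊆ D ∪ R0 ∪ K.biUnion C := fun u _ => by
      rcases hcover u with h | h | ⟨k', hk', h⟩
      · simp [h]
      · simp [h]
      · exact mem_union_right _ (mem_biUnion.2 ⟨k', hk', h⟩)
    have h4 := (card_le_card hsub).trans (card_union_le _ _)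
    have h5' := card_union_le D R0
    have h6 := (card_biUnion_le (s := K) (t := C)).trans
      (sum_le_sum fun k hk => card_le_four_of_aOn h5 (Nat.le_of_lt_succ (hbig k hk)))
    rw [sum_const, smul_eq_mul] at h6
    rw [card_univ] at h4
    omega


/-- The upper bound for `m = 6`. -/
theorem upper_six {n : ℕ} (hn : n ≤ 6) (U : Type) [Fintype U] [DecidableEq U]
    (H : SimpleGraph U) [DecidableRel H.Adj] (hcard : (6 - 1) * (n - 1) < Fintype.card U) :
    HasC H 6 ∨ HasI H n :=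
  upper_of_step (by omega) 6 (fun _ _ hk _ _ _ _ _ hH hs => no_minimal_six hk hH hs) n hn U H hcard

end Vale.Agent.P048.Small
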