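import Vale.Agent.P048.Small.M6

/-!
P048: the case `m = 7`.  Without `K_5` every neighbourhood is a union of triangles and one child of
each neighbour of a vertex gives too large an independent set; with a `K_5` the atoms of its
outside neighbours give too few vertices.
-/

namespace Vale.Agent.P048.Small

open Finset
open Assembly (HasC HasI Minimal)
open Full (aOn exists_aOn)

variable {V : Type*} [Fintype V] [DecidableEq V] {G : SimpleGraph V} [DecidableRel G.Adj]

/-- A chain between two vertices of a clique closes a cycle through further clique vertices. -/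
theorem hasC_of_chain {D : Finset V} (hD : ∀ a ∈ D, ∀ b ∈ D, a ≠ b → G.Adj a b) (Q : List V)
    (hne : Q ≠ []) (hnd : Q.Nodup) (hch : Q.IsChain G.Adj) (hh : Q.head hne ∈ D)
    (hl : Q.getLast hne ∈ D) (hhl : Q.head hne ≠ Q.getLast hne) {m : ℕ} (hlo : Q.length ≤ m)
    (hhi : m ≤ Q.length + #(D \ Q.toFinset)) : HasC G m := by
  obtain ⟨M, hM, hMc⟩ := exists_subset_card_eq (s := D \ Q.toFinset) (n := m - Q.length) (by omega)
  have hMm : ∀ z ∈ M.toList, z ∈ D ∧ z ∉ Q := fun z hz => by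
    have := hM (mem_toList.1 hz)
    simpa using this
  have hMch : M.toList.IsChain G.Adj :=
    List.isChain_iff_getElem.2 fun k hk => hD _ (hMm _ (List.getElem_mem _)).1 _
      (hMm _ (List.getElem_mem _)).1 fun h => by
        have := (List.Nodup.getElem_inj_iff (nodup_toList M)).1 h
        omega
  refine ⟨Q ++ M.toList, ⟨⟨List.nodup_append'.2 ⟨hnd, nodup_toList _,
    fun z hz hz' => (hMm z hz').2 hz⟩, fun z _ => mem_univ z,
    List.isChain_append.2 ⟨hch, hMch, fun a ha b hb => ?_⟩⟩, by simp [hne], ?_⟩,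
    by simp [hMc]; omega⟩
  · rw [List.getLast?_eq_some_getLast hne, Option.mem_def, Option.some.injEq] at ha
    subst ha
    have hb' := hMm b (List.mem_of_mem_head? hb)
    exact hD _ hl _ hb'.1 fun e => hb'.2 (e ▸ List.getLast_mem hne)
  · by_cases hM0 : M.toList = []
    · simp only [hM0, List.append_nil]
      exact hD _ hl _ hh hhl.symm
    · rw [List.getLast_append_of_ne_nil _ hM0, List.head_append_of_ne_nil hne]
      have hb' := hMm _ (List.getLast_mem hM0)
      exact hD _ hb'.1 _ hh fun e => hb'.2 (e ▸ List.head_mem hne)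

omit [Fintype V] in
theorem card_sdiff_ge {D : Finset V} (Q : List V) {s : Finset V} (hs : Q.toFinset ∩ D ⊆ s) :
    #D ≤ #(D \ Q.toFinset) + #s := by
  have h := card_sdiff_add_card_inter D Q.toFinset
  rw [inter_comm] at h
  have := card_le_card hs
  omega

/-- Outer paths between different atoms of a `K_5`. -/
theorem atom_link_seven (hnoC : ¬ HasC G 7) {D : Finset V} (hD : #D = 5)
    (hDc : ∀ a ∈ D, ∀ b ∈ D, a ≠ b → G.Adj a b) {w w' : V} (hw : w ∉ D) (hw' : w' ∉ D)
    (hwD : ∃ x ∈ D, G.Adj w x) (hwD' : ∃ x ∈ D, G.Adj w' x) (hne : atom G D w ≠ atom G D w') :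
    ¬ G.Adj w w' ∧ (∀ r, r ∉ D → G.Adj r w → ¬ G.Adj r w') ∧
      ∀ r r', r ∉ D → r' ∉ D → (∀ x ∈ D, ¬ G.Adj r x) → (∀ x ∈ D, ¬ G.Adj r' x) →
        G.Adj r w → G.Adj r' w' → ¬ G.Adj r r' := by
  have hww : w ≠ w' := fun e => hne (by rw [e])
  obtain ⟨x, hx, y, hy, hxy, hwx, hwy⟩ := atom_cases hwD hwD' (Or.inl hne)
  refine ⟨fun h => ?_, fun r hr hrw hrw' => ?_, fun r r' hr hr' hrn hrn' hrw hrw' h => ?_⟩
  · exact hnoC (hasC_of_arc hDc hx hy hxy [w, w'] (by simp) (by simp [hww]) (by simp [hw, hw'])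
      (by simp [hwx.symm, h, hwy]) (by simp) (by simp; omega))
  · exact hnoC (hasC_of_arc hDc hx hy hxy [w, r, w'] (by simp)
      (by simp [hrw.ne', hrw'.ne, hww]) (by simp [hw, hr, hw'])
      (by simp [hwx.symm, hrw.symm, hrw', hwy]) (by simp) (by simp; omega))
  · have e1 : w ≠ r' := fun e => hrn' x hx (e ▸ hwx)
    have e2 : r ≠ w' := fun e => hrn y hy (e ▸ hwy)
    exact hnoC (hasC_of_arc hDc hx hy hxy [w, r, r', w'] (by simp)
      (by simp [hrw.ne', e1, hww, h.ne, e2, hrw'.ne]) (by simp [hw, hr, hr', hw'])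
      (by simp [hwx.symm, hrw.symm, h, hrw', hwy]) (by simp) (by simp; omega))

/-- At least five atoms, and six unless some private atom meets no shared vertex. -/
theorem five_atoms (hnoC : ¬ HasC G 7) {D : Finset V} (hD : #D = 5)
    (hDc : ∀ a ∈ D, ∀ b ∈ D, a ≠ b → G.Adj a b)
    (hdeg : ∀ x, 6 ≤ #(univ.filter (G.Adj x))) :
    5 ≤ #((outIn G univ D).image (atom G D)) ∧
      (6 ≤ #((outIn G univ D).image (atom G D)) ∨
        ∃ z ∈ D, z ∈ (outIn G univ D).image (atom G D) ∧
          ∀ w ∈ outIn G univ D, G.Adj w z → atom G D w = z) := by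
  classical
  set W := outIn G univ D with hW
  have hmem : ∀ w, w ∈ W ↔ w ∉ D ∧ ∃ x ∈ D, G.Adj w x := by simp [hW, mem_outIn]
  set M := W.filter fun w => 1 < #(D.filter (G.Adj w)) with hM
  have hout : ∀ x ∈ D, 2 ≤ #(W.filter (G.Adj x)) := by
    intro x hx
    have hsub : univ.filter (G.Adj x) ⊆ D.erase x ∪ W.filter (G.Adj x) := fun z hz => by
      rw [mem_filter] at hz
      by_cases hzD : z ∈ D
      · exact mem_union_left _ (mem_erase.2 ⟨hz.2.ne', hzD⟩)
      · exact mem_union_right _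
          (mem_filter.2 ⟨(hmem z).2 ⟨hzD, x, hx, hz.2.symm⟩, hz.2⟩)
    have := (hdeg x).trans ((card_le_card hsub).trans (card_union_le _ _))
    rw [card_erase_of_mem hx, hD] at this
    omega
  have hatom : ∀ w ∈ W, w ∉ M → ∀ x ∈ D, G.Adj w x → atom G D w = x := by
    intro w hw hwM x hx hwx
    have hle : #(D.filter (G.Adj w)) ≤ 1 := by
      by_contra h
      exact hwM (mem_filter.2 ⟨hw, by omega⟩)
    have hxf : x ∈ D.filter (G.Adj w) := mem_filter.2 ⟨hx, hwx⟩
    exact atom_eq_of_singleton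
      (eq_singleton_iff_unique_mem.2 ⟨hxf, fun z hz => card_le_one.1 hle z hz x hxf⟩)
  have hpriv : ∀ x ∈ D, (∃ w ∈ W, G.Adj x w ∧ w ∉ M) → x ∈ W.image (atom G D) := by
    rintro x hx ⟨w, hw, hxw, hwM⟩
    exact mem_image.2 ⟨w, hw, hatom w hw hwM x hx hxw.symm⟩
  have hMself : ∀ w ∈ M, w ∈ W.image (atom G D) := fun w hw => by
    rw [mem_filter] at hw
    exact mem_image.2 ⟨w, hw.1, atom_eq_self (by omega)⟩
  have hMD : Disjoint M D := disjoint_left.2 fun w hw => ((hmem w).1 (mem_filter.1 hw).1).1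
  rcases M.eq_empty_or_nonempty with hM0 | ⟨w, hwM⟩
  · have hall : D ⊆ W.image (atom G D) := fun x hx => by
      obtain ⟨z, hz⟩ := card_pos.1 (show 0 < #(W.filter (G.Adj x)) by have := hout x hx; omega)
      rw [mem_filter] at hz
      exact hpriv x hx ⟨z, hz.1, hz.2, by simp [hM0]⟩
    obtain ⟨z, hz⟩ := card_pos.1 (show 0 < #D by omega)
    exact ⟨hD ▸ card_le_card hall,
      Or.inr ⟨z, hz, hall hz, fun w hw hwz => hatom w hw (by simp [hM0]) z hz hwz⟩⟩
  by_cases hone : ∀ w' ∈ M, w' = w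
  · have hall : insert w D ⊆ W.image (atom G D) := by
      refine insert_subset (hMself w hwM) fun x hx => hpriv x hx ?_
      obtain ⟨z, hz, hzw⟩ := exists_mem_ne (show 1 < #(W.filter (G.Adj x)) from hout x hx) w
      rw [mem_filter] at hz
      exact ⟨z, hz.1, hz.2, fun h => hzw (hone z h)⟩
    have h6 := card_le_card hall
    rw [card_insert_of_notMem (disjoint_left.1 hMD hwM), hD] at h6
    exact ⟨by omega, Or.inl h6⟩
  push Not at hone
  obtain ⟨w', hw'M, hne⟩ := hone
  have hDS : ∀ a ∈ M, a ∉ D := fun a ha => disjoint_left.1 hMD ha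
  -- several shared vertices all sit on one pair
  have hpair : ∀ a ∈ M, ∀ b ∈ M, a ≠ b → ∀ z ∈ D, G.Adj b z → G.Adj a z := by
    intro a ha b hb hab z hz hbz
    by_contra haz
    have haD := hDS a ha
    have hbD := hDS b hb
    rw [mem_filter] at ha hb
    obtain ⟨y', hy', hy'z⟩ := exists_mem_ne hb.2 z
    rw [mem_filter] at hy'
    by_cases hay : G.Adj a y'
    · obtain ⟨x, hx, hxy⟩ := exists_mem_ne ha.2 y'
      rw [mem_filter] at hx
      have hxz : x ≠ z := fun e => haz (e ▸ hx.2)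
      have h0 := card_sdiff_ge (D := D) [x, a, y', b, z] (s := {x, y', z}) (by
        intro t ht
        simp only [mem_inter, List.mem_toFinset, List.mem_cons, List.not_mem_nil, or_false] at ht
        rcases ht.1 with rfl | rfl | rfl | rfl | rfl <;> first | exact absurd ht.2 (by assumption) | simp)
      have h3 : #({x, y', z} : Finset V) ≤ 3 := card_le_three
      refine hnoC (hasC_of_chain hDc [x, a, y', b, z] (by simp) ?_ ?_ hx.1 (by simpa using hz)
        (by simpa using hxz) (by simp) (by simp only [List.length_cons, List.length_nil]; omega))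
      · have d1 : ∀ t ∈ D, t ≠ a ∧ t ≠ b :=
          fun t ht => ⟨fun e => haD (e ▸ ht), fun e => hbD (e ▸ ht)⟩
        simp [(d1 x hx.1).1, hxy, (d1 x hx.1).2, hxz, hay.ne, hab, (d1 z hz).1.symm,
          (d1 y' hy'.1).2, hy'z, hbz.ne]
      · simp [hx.2.symm, hay, hy'.2.symm, hbz]
    · obtain ⟨x, hx, y, hy, hxy⟩ := one_lt_card.1 ha.2
      rw [mem_filter] at hx hy
      have hxz : x ≠ z := fun e => haz (e ▸ hx.2)
      have hyz : y ≠ z := fun e => haz (e ▸ hy.2)
      have hxy' : x ≠ y' := fun e => hay (e ▸ hx.2)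
      have hyy' : y ≠ y' := fun e => hay (e ▸ hy.2)
      have h0 := card_sdiff_ge (D := D) [x, a, y, y', b, z] (s := {x, y, y', z}) (by
        intro t ht
        simp only [mem_inter, List.mem_toFinset, List.mem_cons, List.not_mem_nil, or_false] at ht
        rcases ht.1 with rfl | rfl | rfl | rfl | rfl | rfl <;> first | exact absurd ht.2 (by assumption) | simp)
      have h4 : #({x, y, y', z} : Finset V) ≤ 4 := card_le_four
      refine hnoC (hasC_of_chain hDc [x, a, y, y', b, z] (by simp) ?_ ?_ hx.1 (by simpa using hz)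
        (by simpa using hxz) (by simp) (by simp only [List.length_cons, List.length_nil]; omega))
      · have d1 : ∀ t ∈ D, t ≠ a ∧ t ≠ b :=
          fun t ht => ⟨fun e => haD (e ▸ ht), fun e => hbD (e ▸ ht)⟩
        simp [(d1 x hx.1).1, hxy, hxy', (d1 x hx.1).2, hxz, hy.2.ne,
          (d1 y' hy'.1).1.symm, hab, (d1 z hz).1.symm, hyy', (d1 y hy.1).2, hyz,
          (d1 y' hy'.1).2, hy'z, hbz.ne]
      · simp [hx.2.symm, hy.2, hDc y hy.1 y' hy'.1 hyy', hy'.2.symm, hbz]
  set P := D.filter (G.Adj w) with hPdef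
  have hP2 : #P = 2 := by
    refine le_antisymm ?_ (mem_filter.1 hwM).2
    by_contra h3
    obtain ⟨a, b, c, ha, hb, hc, hab, hac, hbc⟩ := two_lt_card_iff.1 (show 2 < #P by omega)
    simp only [hPdef, mem_filter] at ha hb hc
    have hwD := hDS w hwM
    have hw'D := hDS w' hw'M
    have h' := hpair w' hw'M w hwM hne
    have h0 := card_sdiff_ge (D := D) [a, w, b, w', c] (s := {a, b, c}) (by
      intro t ht
      simp only [mem_inter, List.mem_toFinset, List.mem_cons, List.not_mem_nil, or_false] at ht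
      rcases ht.1 with rfl | rfl | rfl | rfl | rfl <;> first | exact absurd ht.2 (by assumption) | simp)
    have h3' : #({a, b, c} : Finset V) ≤ 3 := card_le_three
    refine hnoC (hasC_of_chain hDc [a, w, b, w', c] (by simp) ?_ ?_ ha.1 (by simpa using hc.1)
      (by simpa using hac) (by simp) (by simp only [List.length_cons, List.length_nil]; omega))
    · have d1 : ∀ t ∈ D, t ≠ w ∧ t ≠ w' :=
        fun t ht => ⟨fun e => hwD (e ▸ ht), fun e => hw'D (e ▸ ht)⟩
      simp [(d1 a ha.1).1, hab, (d1 a ha.1).2, hac, hb.2.ne, hne.symm,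
        (d1 c hc.1).1.symm, (d1 b hb.1).2, hbc, (d1 c hc.1).2.symm]
    · simp [ha.2.symm, hb.2, (h' b hb.1 hb.2).symm, h' c hc.1 hc.2]
  have hMP : ∀ z ∈ M, ∀ x ∈ D, G.Adj z x → x ∈ P := fun z hzM x hx hzx => by
    refine mem_filter.2 ⟨hx, ?_⟩
    by_cases hzw : z = w
    · exact hzw ▸ hzx
    · exact hpair w hwM z hzM (Ne.symm hzw) x hx hzx
  have hpriv' : ∀ x ∈ D \ P, x ∈ W.image (atom G D) := fun x hx => by
    rw [mem_sdiff] at hx
    obtain ⟨z, hz⟩ := card_pos.1 (show 0 < #(W.filter (G.Adj x)) by have := hout x hx.1; omega)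
    rw [mem_filter] at hz
    exact hpriv x hx.1 ⟨z, hz.1, hz.2, fun hzM => hx.2 (hMP z hzM x hx.1 hz.2.symm)⟩
  have hsub : M ∪ (D \ P) ⊆ W.image (atom G D) := union_subset hMself hpriv'
  have h5 := card_le_card hsub
  have hPD : P ⊆ D := filter_subset _ _
  rw [card_union_of_disjoint (hMD.mono_right sdiff_subset), card_sdiff_of_subset hPD] at h5
  have hM2 : 2 ≤ #M := one_lt_card.2 ⟨w, hwM, w', hw'M, hne.symm⟩
  obtain ⟨z, hz⟩ := card_pos.1 (show 0 < #(D \ P) by rw [card_sdiff_of_subset hPD]; omega)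
  refine ⟨by omega, Or.inr ⟨z, (mem_sdiff.1 hz).1, hpriv' z hz, fun u hu huz =>
    hatom u hu (fun huM => (mem_sdiff.1 hz).2 (hMP u huM z (mem_sdiff.1 hz).1 huz))
      z (mem_sdiff.1 hz).1 huz⟩⟩

/-- A minimal counterexample for `m = 7` has no clique on five vertices. -/
theorem no_clique_five_seven {n : ℕ} (hn : n ≤ 7) (hG : Minimal G 7 n) (hs : SmallSets G 7 n)
    (h6 : ∀ K : Finset V, #K = 6 → ¬ ∀ a ∈ K, ∀ b ∈ K, a ≠ b → G.Adj a b) {D : Finset V}
    (hD : #D = 5) (hDc : ∀ a ∈ D, ∀ b ∈ D, a ≠ b → G.Adj a b) : False := by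
  classical
  have hcl : ∀ {S : Finset V}, aOn G S ≤ 1 → #S ≤ 5 := fun {S} hS => by
    by_contra hlt
    obtain ⟨K, hKS, hKc⟩ := exists_subset_card_eq (show 6 ≤ #S by omega)
    exact h6 K hKc fun a ha b hb => Full.clique_of_aOn_le_one hS a (hKS ha) b (hKS hb)
  set W := outIn G univ D with hW
  have hWmem : ∀ w, w ∈ W ↔ w ∉ D ∧ ∃ x ∈ D, G.Adj w x := by simp [hW, mem_outIn]
  set K := W.image (atom G D) with hKdef
  obtain ⟨hK5, hK6⟩ := five_atoms hG.noC hD hDc hG.deg
  rw [← hW, ← hKdef] at hK5 hK6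
  obtain ⟨Z, hZD, hZK, hZ, hZW⟩ : ∃ Z ⊆ D, Z ⊆ K ∧ (6 ≤ #K ∨ #Z = 1) ∧
      (∀ z ∈ Z, ∀ w ∈ W, G.Adj w z → atom G D w = z) ∧ #Z ≤ 1 := by
    rcases hK6 with h | ⟨z, hzD, hzK, hz⟩
    · exact ⟨∅, empty_subset _, empty_subset _, Or.inl h, by simp, by simp⟩
    · exact ⟨{z}, by simpa using hzD, by simpa using hzK, Or.inr (card_singleton z),
        fun x hx => by rw [mem_singleton.1 hx]; exact hz, by simp⟩
  obtain ⟨hZatom, hZ1⟩ := hZW
  set R := univ \ (D ∪ W) with hR
  have hRmem : ∀ r, r ∈ R → r ∉ D ∧ ∀ x ∈ D, ¬ G.Adj r x := by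
    intro r hr
    simp only [hR, mem_sdiff, mem_union, hWmem, not_or, not_and, not_exists] at hr
    exact ⟨hr.2.1, fun x hx => hr.2.2 hr.2.1 x hx⟩
  set R0 := R.filter fun r => ∀ w ∈ W, ¬ G.Adj r w with hR0
  let C : V → Finset V := fun k => W.filter (fun w => atom G D w = k) ∪
    R.filter (fun r => ∃ w ∈ W, atom G D w = k ∧ G.Adj r w) ∪ Z.filter (fun z => z = k)
  have hlink := fun {w w' : V} (hw : w ∈ W) (hw' : w' ∈ W) (h : atom G D w ≠ atom G D w') =>
    atom_link_seven hG.noC hD hDc ((hWmem w).1 hw).1 ((hWmem w').1 hw').1 ((hWmem w).1 hw).2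
      ((hWmem w').1 hw').2 h
  have hCC : ∀ k k', k ≠ k' → ∀ a ∈ C k, ∀ b ∈ C k', a ≠ b ∧ ¬ G.Adj a b := by
    intro k k' hkk a ha b hb
    simp only [C, mem_union, mem_filter] at ha hb
    rcases ha with (⟨haW, rfl⟩ | ⟨haR, w, hw, rfl, haw⟩) | ⟨haZ, rfl⟩ <;>
      rcases hb with (⟨hbW, rfl⟩ | ⟨hbR, w', hw', rfl, hbw⟩) | ⟨hbZ, rfl⟩
    · exact ⟨fun e => hkk (by rw [e]), (hlink haW hbW hkk).1⟩
    · refine ⟨fun e => ?_, fun h => (hlink haW hw' hkk).2.1 b (hRmem b hbR).1 h.symm hbw⟩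
      obtain ⟨x, hx, hax⟩ := ((hWmem a).1 haW).2
      exact (hRmem b hbR).2 x hx (e ▸ hax)
    · exact ⟨fun e => ((hWmem a).1 haW).1 (e ▸ hZD hbZ), fun h => hkk (hZatom b hbZ a haW h)⟩
    · refine ⟨fun e => ?_, fun h => (hlink hw hbW hkk).2.1 a (hRmem a haR).1 haw h⟩
      obtain ⟨x, hx, hbx⟩ := ((hWmem b).1 hbW).2
      exact (hRmem a haR).2 x hx (e ▸ hbx)
    · exact ⟨fun e => (hlink hw hw' hkk).2.1 a (hRmem a haR).1 haw (e ▸ hbw),
        fun h => (hlink hw hw' hkk).2.2 a b (hRmem a haR).1 (hRmem b hbR).1 (hRmem a haR).2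
          (hRmem b hbR).2 haw hbw h⟩
    · exact ⟨fun e => (hRmem a haR).1 (e ▸ hZD hbZ), (hRmem a haR).2 b (hZD hbZ)⟩
    · exact ⟨fun e => ((hWmem b).1 hbW).1 (e ▸ hZD haZ),
        fun h => hkk (hZatom a haZ b hbW h.symm).symm⟩
    · exact ⟨fun e => (hRmem b hbR).1 (e ▸ hZD haZ),
        fun h => (hRmem b hbR).2 a (hZD haZ) h.symm⟩
    · exact absurd (card_le_one.1 hZ1 a haZ b hbZ) hkk
  have hCW : ∀ w ∈ W, w ∈ C (atom G D w) := fun w hw => by simp [C, hw]
  have hext : ∀ X : Finset V, X ⊆ K → ∀ I : Finset V,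
      (∀ a ∈ I, ∀ b ∈ I, ¬ G.Adj a b) → (∀ a ∈ I, a ∈ R0 ∨ ∃ k ∈ X, a ∈ C k) →
      #I + (#K - #X) < n := by
    intro X hX I hI hIm
    have hex : ∀ k ∈ K \ X, ∃ w ∈ W, atom G D w = k :=
      fun k hk => mem_image.1 (mem_sdiff.1 hk).1
    choose! f hf hfa using hex
    have hsep : ∀ a ∈ I, ∀ k ∈ K \ X, a ≠ f k ∧ ¬ G.Adj a (f k) := fun a ha k hk => by
      rcases hIm a ha with h | ⟨k', hk', hak⟩
      · rw [hR0, mem_filter] at h
        refine ⟨fun e => ?_, h.2 _ (hf k hk)⟩
        obtain ⟨x, hx, hbx⟩ := ((hWmem _).1 (hf k hk)).2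
        exact (hRmem a h.1).2 x hx (e ▸ hbx)
      · exact hCC k' (atom G D (f k)) (fun e => (mem_sdiff.1 hk).2 (hfa k hk ▸ e ▸ hk')) a hak _
          (hCW _ (hf k hk))
    have hJi : ∀ a ∈ (K \ X).image f, ∀ b ∈ (K \ X).image f, ¬ G.Adj a b :=
      indep_image fun i hi j hj hij => (hlink (hf i hi) (hf j hj) (by rwa [hfa i hi, hfa j hj])).1
    have := hG.alpha (I ∪ (K \ X).image f) fun a ha b hb => by
      rcases mem_union.1 ha with ha | ha <;> rcases mem_union.1 hb with hb | hb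
      · exact hI a ha b hb
      · obtain ⟨k, hk, rfl⟩ := mem_image.1 hb
        exact (hsep a ha k hk).2
      · obtain ⟨k, hk, rfl⟩ := mem_image.1 ha
        exact fun h => (hsep b hb k hk).2 h.symm
      · exact hJi a ha b hb
    rw [card_union_of_disjoint (disjoint_left.2 fun a ha ha' => by
        obtain ⟨k, hk, rfl⟩ := mem_image.1 ha'
        exact (hsep _ ha k hk).1 rfl),
      card_image_of_injOn fun i hi j hj e => by rw [← hfa i hi, e, hfa j hj],
      card_sdiff_of_subset hX] at this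
    exact this
  have hKn : #K < n := by simpa using hext ∅ (empty_subset _) ∅ (by simp) (by simp)
  have hcover : ∀ u : V, u ∈ D \ Z ∨ u ∈ R0 ∨ ∃ k ∈ K, u ∈ C k := by
    intro u
    by_cases huZ : u ∈ Z
    · exact Or.inr (Or.inr ⟨u, hZK huZ, by simp [C, huZ]⟩)
    by_cases hu : u ∈ D
    · exact Or.inl (mem_sdiff.2 ⟨hu, huZ⟩)
    by_cases huW : u ∈ W
    · exact Or.inr (Or.inr ⟨_, mem_image_of_mem _ huW, hCW u huW⟩)
    have huR : u ∈ R := by simp [hR, hu, huW]
    by_cases hu0 : ∀ w ∈ W, ¬ G.Adj u w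
    · exact Or.inr (Or.inl (mem_filter.2 ⟨huR, hu0⟩))
    push Not at hu0
    obtain ⟨w, hw, huw⟩ := hu0
    exact Or.inr (Or.inr ⟨_, mem_image_of_mem _ hw, mem_union_left _ (mem_union_right _
      (mem_filter.2 ⟨huR, w, hw, rfl, huw⟩))⟩)
  have hN := hG.card
  have hDZ : #(D \ Z) + #Z = 5 := by rw [card_sdiff_add_card_eq_card hZD, hD]
  by_cases hbig : ∃ k ∈ K, 2 ≤ aOn G (C k)
  · obtain ⟨k, hk, hk2⟩ := hbig
    have hX : #K - #({k} : Finset V) = #K - 1 := by simp
    obtain ⟨I, hI, hIc, hIi⟩ := exists_aOn G (C k ∪ R0)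
    have h1 := hext {k} (by simpa using hk) I hIi fun a ha => by
      rcases mem_union.1 (hI ha) with h | h
      · exact Or.inr ⟨k, by simp, h⟩
      · exact Or.inl h
    rw [hX, hIc] at h1
    have h2 : 2 ≤ aOn G (C k ∪ R0) := hk2.trans (Full.aOn_mono subset_union_left)
    have hb := hs (C k ∪ R0) 2 (by omega) fun J hJ hJi => by
      have := Full.card_le_aOn hJ hJi
      omega
    have hsmall : ∀ k' ∈ K.erase k, #(C k') ≤ 5 := by
      intro k' hk'
      refine hcl ?_
      by_contra hlt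
      obtain ⟨A, hA, hAc, hAi⟩ := exists_aOn G (C k)
      obtain ⟨B, hB, hBc, hBi⟩ := exists_aOn G (C k')
      have hne := (ne_of_mem_erase hk').symm
      have h3 := hext {k, k'} (by simp [insert_subset_iff, hk, mem_of_mem_erase hk']) (A ∪ B)
        (fun a ha b hb => by
          rcases mem_union.1 ha with ha | ha <;> rcases mem_union.1 hb with hb | hb
          · exact hAi a ha b hb
          · exact (hCC k k' hne a (hA ha) b (hB hb)).2
          · exact fun h => (hCC k k' hne b (hA hb) a (hB ha)).2 h.symm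
          · exact hBi a ha b hb)
        fun a ha => Or.inr ((mem_union.1 ha).elim (fun h => ⟨k, by simp, hA h⟩)
          fun h => ⟨k', by simp, hB h⟩)
      rw [card_union_of_disjoint (disjoint_left.2 fun a ha ha' =>
        (hCC k k' hne a (hA ha) a (hB ha')).1 rfl), card_pair hne, hAc, hBc] at h3
      omega
    have hsub : (univ : Finset V) ⊆ D \ Z ∪ (C k ∪ R0) ∪ (K.erase k).biUnion C := fun u _ => by
      rcases hcover u with h | h | ⟨k', hk', h⟩
      · exact mem_union_left _ (mem_union_left _ h)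
      · simp [h]
      · by_cases e : k' = k
        · subst e; simp [h]
        · exact mem_union_right _ (mem_biUnion.2 ⟨k', mem_erase.2 ⟨e, hk'⟩, h⟩)
    have h4 := (card_le_card hsub).trans (card_union_le _ _)
    have h5' := card_union_le (D \ Z) (C k ∪ R0)
    have h6' := (card_biUnion_le (s := K.erase k) (t := C)).trans (sum_le_sum hsmall)
    rw [sum_const, smul_eq_mul, card_erase_of_mem hk] at h6'
    rw [card_univ] at h4
    omega
  · push Not at hbig
    obtain ⟨I, hI, hIc, hIi⟩ := exists_aOn G R0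
    have h1 := hext ∅ (empty_subset _) I hIi fun a ha => Or.inl (hI ha)
    simp only [card_empty, Nat.sub_zero, hIc] at h1
    have hR0c : #R0 ≤ 5 * aOn G R0 := by
      rcases Nat.eq_zero_or_pos (aOn G R0) with h0 | h0
      · have : R0 = ∅ := by
          by_contra hne
          have := Full.aOn_pos (G := G) (nonempty_iff_ne_empty.2 hne)
          omega
        simp [this]
      · have := hcl (S := R0) (by omega)
        omega
    have hsub : (univ : Finset V) ⊆ D \ Z ∪ R0 ∪ K.biUnion C := fun u _ => by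
      rcases hcover u with h | h | ⟨k', hk', h⟩
      · exact mem_union_left _ (mem_union_left _ h)
      · simp [h]
      · exact mem_union_right _ (mem_biUnion.2 ⟨k', hk', h⟩)
    have h4 := (card_le_card hsub).trans (card_union_le _ _)
    have h5' := card_union_le (D \ Z) R0
    have h6' := (card_biUnion_le (s := K) (t := C)).trans
      (sum_le_sum fun k hk => hcl (Nat.le_of_lt_succ (hbig k hk)))
    rw [sum_const, smul_eq_mul] at h6'
    rw [card_univ] at h4
    omega

/-- Without a clique on five vertices every neighbourhood is a union of triangles. -/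
theorem nbr_triangle_seven {n : ℕ} (hn : n ≤ 7) (hG : Minimal G 7 n) (hs : SmallSets G 7 n)
    (h5 : ∀ K : Finset V, #K = 5 → ¬ ∀ a ∈ K, ∀ b ∈ K, a ≠ b → G.Adj a b) (v : V) :
    ∀ w, G.Adj v w → ∃ T : Finset V, #T = 3 ∧ w ∈ T ∧ (∀ z ∈ T, G.Adj v z) ∧
      (∀ a ∈ T, ∀ b ∈ T, a ≠ b → G.Adj a b) ∧
      ∀ a ∈ T, ∀ z, G.Adj v z → G.Adj a z → z ∈ T := by
  classical
  have hconn := hG.conn
  obtain ⟨par, hpar⟩ := Full.exists_parent hconn v
  have hgood : ∀ i, i ≤ 3 → Full.Good G (Full.layer G v i) 3 := by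
    intro i hiq
    by_contra hi
    simp only [Full.Good, not_forall, not_le] at hi
    obtain ⟨S, hS, k, hk, hlt⟩ := hi
    have hne : S.Nonempty := card_pos.1 (by omega)
    obtain ⟨I, hI, hIc, hind⟩ := exists_aOn G S
    have hbad : Full.Bad G S 3 0 := ⟨hne, by
      have := Nat.mul_le_mul_left 3 (show aOn G S ≤ k from hIc ▸ hk I hI hind)
      omega⟩
    have h0 : ∀ T ⊆ S, 2 ≤ #T → 1 ≤ i := fun T hT hT2 => by
      by_contra h
      have hsub : T ⊆ {v} := fun x hx => by
        have := Full.mem_layer.1 (hS (hT hx))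
        rw [mem_singleton]
        exact ((hconn.dist_eq_zero_iff).1 (by omega)).symm
      have := card_le_card hsub
      simp at this
      omega
    rcases Full.exists_minimal_bad (by omega) (by omega) (by omega) hbad with ⟨D, hDS, hD, hDc⟩ |
      ⟨B, hBS, hα2, hbb, hd, hc, hcut, hbip⟩
    swap
    · exact hG.noC (Full.hasC_of_block (G.dist v) par hpar {v}
        (fun u => by rw [mem_singleton, hconn.dist_eq_zero_iff, eq_comm]) (by simp) (q := 3)
        (by omega) (by omega) (by omega) (fun x hx => Full.mem_layer.1 (hS (hBS hx)))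
        (h0 B hBS (by omega)) (by omega) (Or.inl (by simp)) (by omega) hd hc hcut hbip)
    have hlev : ∀ x ∈ D, G.dist v x = i := fun x hx => Full.mem_layer.1 (hS (hDS hx))
    have hi1 := h0 D hDS (by omega)
    have hstep : ∀ z, ∀ l, G.dist v z = l + 1 → G.Adj z (par z) ∧ G.dist v (par z) = l :=
      fun z l hz => by
        obtain ⟨p, q⟩ := hpar z (by omega)
        exact ⟨p, by omega⟩
    obtain ⟨i, rfl⟩ : ∃ j, i = j + 1 := ⟨i - 1, by omega⟩
    by_cases hsame : ∀ a ∈ D, ∀ b ∈ D, par a = par b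
    · obtain ⟨a, ha⟩ := card_pos.1 (show 0 < #D by omega)
      refine h5 (insert (par a) D) ?_ fun x hx y hy hxy => ?_
      · rw [card_insert_of_notMem, hD]
        intro h
        have := (hstep a i (hlev a ha)).2
        rw [hlev _ h] at this
        omega
      · have hp : ∀ z ∈ D, G.Adj z (par a) := fun z hz => by
          rw [← hsame z hz a ha]
          exact (hstep z i (hlev z hz)).1
        rcases mem_insert.1 hx with rfl | hx' <;> rcases mem_insert.1 hy with rfl | hy'
        · exact absurd rfl hxy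
        · exact (hp y hy').symm
        · exact hp x hx'
        · exact hDc x hx' y hy' hxy
    push Not at hsame
    obtain ⟨a, ha, b, hb, hab⟩ := hsame
    have hne' : a ≠ b := fun e => hab (by rw [e])
    obtain ⟨pa, la⟩ := hstep a i (hlev a ha)
    obtain ⟨pb, lb⟩ := hstep b i (hlev b hb)
    obtain ⟨i, rfl⟩ : ∃ j, i = j + 1 := ⟨i - 1, by
      by_contra h
      exact hab (((hconn.dist_eq_zero_iff).1 (show G.dist v (par a) = 0 by omega)).symm.trans
        ((hconn.dist_eq_zero_iff).1 (show G.dist v (par b) = 0 by omega)))⟩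
    obtain ⟨ga, ma⟩ := hstep (par a) i la
    obtain ⟨gb, mb⟩ := hstep (par b) i lb
    have e0 : G.dist v v = 0 := SimpleGraph.dist_self
    have hd1 : ∀ y z, G.dist v y ≠ G.dist v z → y ≠ z := fun y z h e => h (by rw [e])
    have hlev' := hlev
    by_cases hgg : par (par a) = par (par b)
    · have h0 := card_sdiff_ge (D := D) [a, par a, par (par a), par b, b] (s := {a, b}) (by
        intro t ht
        simp only [mem_inter, List.mem_toFinset, List.mem_cons, List.not_mem_nil, or_false] at ht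
        have := hlev t ht.2
        rcases ht.1 with rfl | rfl | rfl | rfl | rfl <;> first | omega | simp)
      have h2 : #({a, b} : Finset V) ≤ 2 := card_le_two
      refine hG.noC (hasC_of_chain hDc [a, par a, par (par a), par b, b] (by simp) ?_ ?_ ha
        (by simpa using hb) (by simpa using hne') (by simp)
        (by simp only [List.length_cons, List.length_nil]; omega))
      · have := hlev a ha; have := hlev b hb
        simp [hd1 a (par a) (by omega), hd1 a (par (par a)) (by omega), hd1 a (par b) (by omega),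
          hne', ga.ne, hab, hd1 (par a) b (by omega), hd1 (par (par a)) (par b) (by omega),
          hd1 (par (par a)) b (by omega), pb.ne']
      · simp [pa, ga, hgg ▸ gb.symm, pb.symm]
    · obtain ⟨i, rfl⟩ : ∃ j, i = j + 1 := ⟨i - 1, by
        by_contra h
        exact hgg (((hconn.dist_eq_zero_iff).1 (show G.dist v (par (par a)) = 0 by omega)).symm.trans
          ((hconn.dist_eq_zero_iff).1 (show G.dist v (par (par b)) = 0 by omega)))⟩
      have va : G.Adj v (par (par a)) := SimpleGraph.dist_eq_one_iff_adj.1 (by omega)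
      have vb : G.Adj v (par (par b)) := SimpleGraph.dist_eq_one_iff_adj.1 (by omega)
      refine hG.noC ⟨[a, par a, par (par a), v, par (par b), par b, b],
        ⟨⟨?_, fun z _ => mem_univ z, ?_⟩, by simp, ?_⟩, by simp⟩
      · have := hlev a ha; have := hlev b hb
        simp [hd1 a (par a) (by omega), hd1 a (par (par a)) (by omega), hd1 a v (by omega),
          hd1 a (par (par b)) (by omega), hd1 a (par b) (by omega), hne',
          hd1 (par a) (par (par a)) (by omega), hd1 (par a) v (by omega),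
          hd1 (par a) (par (par b)) (by omega), hab, hd1 (par a) b (by omega), va.ne', hgg,
          hd1 (par (par a)) (par b) (by omega), hd1 (par (par a)) b (by omega), vb.ne,
          hd1 v (par b) (by omega), hd1 v b (by omega), hd1 (par (par b)) (par b) (by omega),
          hd1 (par (par b)) b (by omega), pb.ne']
      · simp [pa, ga, va.symm, vb, gb.symm, pb.symm]
      · simpa using hDc b hb a ha hne'.symm
  rcases Full.exists_layer_le hconn (q := 3) (by omega) (by omega) hn hG.alpha hG.card hs v with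
    ⟨i, hiq, hi⟩ | ⟨-, hex⟩
  · exact absurd (hgood i hiq) hi
  intro w hw
  set L := Full.layer G v 1 with hL
  have hLmem : ∀ z, z ∈ L ↔ G.Adj v z := fun z => by
    rw [hL, Full.mem_layer, SimpleGraph.dist_eq_one_iff_adj]
  have hnd := Full.noDense_of_good (hgood 1 (by omega))
  rw [← hL] at hnd
  obtain ⟨I, hI, hIc, hind⟩ := exists_aOn G L
  have hex' : #L = 3 * aOn G L := le_antisymm (hnd L subset_rfl) (hIc ▸ hex I hI hind)
  have hwL := (hLmem w).2 hw
  set C := Full.compIn G L w with hC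
  have hwC : w ∈ C := Full.mem_compIn_self hwL
  have hCL : C ⊆ L := Full.compIn_subset
  have hCex := Full.compIn_exact hnd hex' w
  rw [← hC] at hCex
  have hC1 : 1 ≤ aOn G C := Full.aOn_pos ⟨w, hwC⟩
  rcases hC1.eq_or_lt with h1 | h2
  · exact ⟨C, by omega, hwC, fun z hz => (hLmem z).1 (hCL hz), Full.clique_of_aOn_le_one h1.ge,
      fun a ha z hz haz => Full.compIn_closed ha ((hLmem z).2 hz) haz⟩
  · exfalso
    obtain ⟨l, hl, hlen⟩ := Full.exact_path C Full.compIn_connected (hnd.mono hCL) hCex h2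
    set l' := l.take 6 with hl'
    have hlen' : l'.length = 6 := by rw [hl', List.length_take]; omega
    have hsub : List.Sublist l' l := List.take_sublist _ _
    have hne : l' ≠ [] := by intro h; simp [h] at hlen'
    have hvL : v ∉ L := fun h => G.irrefl ((hLmem v).1 h)
    refine hG.noC ⟨v :: l', ⟨⟨List.nodup_cons.2 ⟨fun h => hvL (hCL (hl.2.1 _ (hsub.subset h))),
      hl.1.sublist hsub⟩, fun x _ => mem_univ x, ?_⟩, by simp, ?_⟩, by simp [hlen']⟩
    · rw [List.isChain_cons]
      exact ⟨fun z hz => (hLmem z).1 (hCL (hl.2.1 _ (hsub.subset (List.mem_of_mem_head? hz)))),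
        hl.2.2.take _⟩
    · rw [List.getLast_cons hne, List.head_cons]
      exact ((hLmem _).1 (hCL (hl.2.1 _ (hsub.subset (List.getLast_mem hne))))).symm

/-- No minimal counterexample for `m = 7`. -/
theorem no_minimal_seven {n : ℕ} (hn : n ≤ 7) (hG : Minimal G 7 n) (hs : SmallSets G 7 n) :
    False := by
  classical
  by_cases h6 : ∃ K : Finset V, #K = 6 ∧ ∀ a ∈ K, ∀ b ∈ K, a ≠ b → G.Adj a b
  · obtain ⟨K, hK, hKc⟩ := h6
    exact no_clique_pred (by omega) hn hG.noC hG.alpha hG.card hG.deg hK hKc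
  by_cases h5 : ∃ K : Finset V, #K = 5 ∧ ∀ a ∈ K, ∀ b ∈ K, a ≠ b → G.Adj a b
  · obtain ⟨K, hK, hKc⟩ := h5
    exact no_clique_five_seven hn hG hs (fun K hK hKc => h6 ⟨K, hK, hKc⟩) hK hKc
  have htri := nbr_triangle_seven hn hG hs fun K hK hKc => h5 ⟨K, hK, hKc⟩
  obtain ⟨v⟩ := hG.conn.nonempty
  set L := univ.filter (G.Adj v) with hL
  have hvL : ∀ u ∈ L, G.Adj v u := fun u hu => (mem_filter.1 hu).2
  have hchild : ∀ u ∈ L, ∃ T : Finset V, #T = 3 ∧ (∀ z ∈ T, G.Adj u z ∧ z ≠ v ∧ ¬ G.Adj v z) ∧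
      (∀ a ∈ T, ∀ b ∈ T, a ≠ b → G.Adj a b) ∧ ∀ a ∈ T, ∀ z, G.Adj u z → G.Adj a z → z ∈ T := by
    intro u hu
    have huv := (hvL u hu).symm
    obtain ⟨T₀, hT₀, hv₀, -, hc₀, hclo₀⟩ := htri u v huv
    obtain ⟨c, hc, hc'⟩ : ∃ c, G.Adj u c ∧ c ∉ T₀ := by
      by_contra hcon
      push Not at hcon
      have := (hG.deg u).trans (card_le_card (show univ.filter (G.Adj u) ⊆ T₀ from
        fun z hz => hcon z (mem_filter.1 hz).2))
      omega
    obtain ⟨T, hT, hcT, hTu, hTc, hTclo⟩ := htri u c hc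
    have hvT : v ∉ T := fun hv => hc' (by
      refine hclo₀ v hv₀ c hc (hTc v hv c hcT ?_)
      exact fun e => hc' (e ▸ hv₀))
    exact ⟨T, hT, fun z hz => ⟨hTu z hz, fun e => hvT (e ▸ hz),
      fun h => hvT (hTclo z hz v huv h.symm)⟩, hTc, hTclo⟩
  choose! T hT hTz hTc hTclo using hchild
  have hne' : ∀ u ∈ L, (T u).Nonempty := fun u hu => card_pos.1 (by rw [hT u hu]; omega)
  choose! c hc using hne'
  -- two further vertices of a child triangle
  have hmates : ∀ u ∈ L, ∀ a ∈ T u, ∃ b ∈ T u, ∃ d ∈ T u, a ≠ b ∧ a ≠ d ∧ b ≠ d := by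
    intro u hu a ha
    obtain ⟨b, hb, d, hd, hbd⟩ := one_lt_card.1 (show 1 < #((T u).erase a) by
      rw [card_erase_of_mem ha, hT u hu]; omega)
    rw [mem_erase] at hb hd
    exact ⟨b, hb.2, d, hd.2, hb.1.symm, hd.1.symm, hbd⟩
  have hnotL : ∀ u ∈ L, ∀ u' ∈ L, u' ∉ T u := fun u hu u' hu' h =>
    (hTz u hu u' h).2.2 (hvL u' hu')
  -- child triangles of different neighbours are disjoint
  have hdisj : ∀ u ∈ L, ∀ u' ∈ L, u ≠ u' → ∀ a ∈ T u, a ∉ T u' := by
    intro u hu u' hu' hne a ha ha'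
    obtain ⟨b, hb, d, hd, hab, had, hbd⟩ := hmates u hu a ha
    obtain ⟨e, he⟩ := card_pos.1 (show 0 < #((T u').erase a) by
      rw [card_erase_of_mem ha', hT u' hu']; omega)
    rw [mem_erase] at he
    obtain ⟨huv, hua⟩ := And.intro (hvL u hu) (hTz u hu a ha)
    obtain ⟨hu'v, hu'a⟩ := And.intro (hvL u' hu') (hTz u' hu' a ha')
    have hae : G.Adj a e := hTc u' hu' a ha' e he.2 he.1.symm
    -- `u'` sees none of the other vertices below `u`
    obtain ⟨T', hT', hbT', hT'a, -, hclo⟩ := htri a b (hTc u hu a ha b hb hab)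
    have hu'b : ∀ z ∈ T u, z ≠ a → ¬ G.Adj u' z := by
      intro z hz hza h
      have hzT : z ∈ T' := by
        by_cases hzb : z = b
        · exact hzb ▸ hbT'
        · exact hclo b hbT' z (hTc u hu a ha z hz hza.symm) (hTc u hu b hb z hz (Ne.symm hzb))
      have huT : u ∈ T' := hclo b hbT' u hua.1.symm (hTz u hu b hb).1.symm
      have hdT : d ∈ T' := hclo b hbT' d (hTc u hu a ha d hd had) (hTc u hu b hb d hd hbd)
      have hu'T : u' ∈ T' := hclo z hzT u' hu'a.1.symm h.symm
      have e1 : u' ≠ b := fun e' => hnotL u hu u' hu' (e' ▸ hb)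
      have e2 : u' ≠ d := fun e' => hnotL u hu u' hu' (e' ▸ hd)
      have e3 : u ≠ b := fun e' => hnotL u hu u hu (e'.symm ▸ hb)
      have e4 : u ≠ d := fun e' => hnotL u hu u hu (e'.symm ▸ hd)
      have := card_le_card (show ({u', u, b, d} : Finset V) ⊆ T' by
        simp [insert_subset_iff, hu'T, huT, hbT', hdT])
      rw [card_insert_of_notMem (by simp [hne.symm, e1, e2]),
        card_eq_three.2 ⟨u, b, d, e3, e4, hbd, rfl⟩] at this
      omega
    have heb : b ≠ e := fun e' => hu'b b hb hab.symm (e' ▸ (hTz u' hu' e he.2).1)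
    have hed : d ≠ e := fun e' => hu'b d hd had.symm (e' ▸ (hTz u' hu' e he.2).1)
    have hub := hTz u hu b hb
    have hud := hTz u hu d hd
    have hu'e := hTz u' hu' e he.2
    have hue : u ≠ e := fun e' => hnotL u' hu' u hu (e'.symm ▸ he.2)
    have hu'b' : u' ≠ b := fun e' => hnotL u hu u' hu' (e' ▸ hb)
    have hu'd' : u' ≠ d := fun e' => hnotL u hu u' hu' (e' ▸ hd)
    refine hG.noC ⟨[a, b, d, u, v, u', e], ⟨⟨?_, fun z _ => mem_univ z, ?_⟩, by simp, ?_⟩, by simp⟩
    · simp [hab, had, hua.1.ne', hua.2.1, hu'a.1.ne', hae.ne, hbd, hub.1.ne', hub.2.1,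
        hu'b'.symm, heb, hud.1.ne', hud.2.1, hu'd'.symm, hed, huv.ne', hne, hue, hu'v.ne,
        hu'e.2.1.symm, hu'e.1.ne]
    · simp [hTc u hu a ha b hb hab, hTc u hu b hb d hd hbd, hud.1.symm, huv.symm, hu'v, hu'e.1]
    · simpa using hae.symm
  have hedge : ∀ u ∈ L, ∀ u' ∈ L, u ≠ u' → ¬ G.Adj (c u) (c u') := by
    intro u hu u' hu' hne h
    obtain ⟨b, hb, d, hd, hab, had, hbd⟩ := hmates u hu _ (hc u hu)
    have hua := hTz u hu _ (hc u hu)
    have hu'a := hTz u' hu' _ (hc u' hu')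
    have hub := hTz u hu b hb
    have hud := hTz u hu d hd
    have huv := hvL u hu
    have hu'v := hvL u' hu'
    have e1 : c u' ≠ b := fun e => hdisj u hu u' hu' hne b hb (e ▸ hc u' hu')
    have e2 : c u' ≠ d := fun e => hdisj u hu u' hu' hne d hd (e ▸ hc u' hu')
    have e3 : c u' ≠ u := fun e => hnotL u' hu' u hu (e ▸ hc u' hu')
    have e4 : u' ≠ c u := fun e => hnotL u hu u' hu' (e.symm ▸ hc u hu)
    have e5 : u' ≠ b := fun e => hnotL u hu u' hu' (e ▸ hb)
    have e6 : u' ≠ d := fun e => hnotL u hu u' hu' (e ▸ hd)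
    refine hG.noC ⟨[c u', c u, b, d, u, v, u'], ⟨⟨?_, fun z _ => mem_univ z, ?_⟩, by simp, ?_⟩,
      by simp⟩
    · simp [h.ne', e1, e2, e3, hu'a.2.1, hu'a.1.ne', hab, had, hua.1.ne', hua.2.1, e4.symm, hbd,
        hub.1.ne', hub.2.1, e5.symm, hud.1.ne', hud.2.1, e6.symm, huv.ne', hne, hu'v.ne]
    · simp [h.symm, hTc u hu _ (hc u hu) b hb hab, hTc u hu b hb d hd hbd, hud.1.symm, huv.symm,
        hu'v]
    · simpa using hu'a.1
  have := hG.alpha (insert v (L.image c)) (Full.indep_insert (indep_image hedge) fun z hz => by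
    obtain ⟨u, hu, rfl⟩ := mem_image.1 hz
    exact (hTz u hu _ (hc u hu)).2.2)
  rw [card_insert_of_notMem, card_image_of_injOn] at this
  · have := hG.deg v
    rw [← hL] at this
    omega
  · intro u hu u' hu' e
    by_contra hne
    exact hdisj u hu u' hu' hne _ (hc u hu) (e ▸ hc u' hu')
  · intro h
    obtain ⟨u, hu, e⟩ := mem_image.1 h
    exact (hTz u hu _ (hc u hu)).2.1 e

/-- The upper bound for `m = 7`. -/
theorem upper_seven {n : ℕ} (hn : n ≤ 7) (U : Type) [Fintype U] [DecidableEq U]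
    (H : SimpleGraph U) [DecidableRel H.Adj] (hcard : (7 - 1) * (n - 1) < Fintype.card U) :
    HasC H 7 ∨ HasI H n :=
  upper_of_step (by omega) 7 (fun _ _ hk _ _ _ _ _ hH hs => no_minimal_seven hk hH hs) n hn U H hcard

end Vale.Agent.P048.Small
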