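import Vale.Agent.P048.Assembly
import Vale.Agent.P048.Full.Indep

/-!
P048, small cycles: no minimal counterexample contains a clique on `m - 1` vertices.  The outside
neighbourhoods of the clique's vertices are disjoint, pairwise anticomplete cliques, so a
transversal is an independent set of `m - 1` vertices and every further vertex enlarges it.
-/

namespace Vale.Agent.P048.Small

open Finset
open Dirac (PathIn CycleIn)
open Assembly (HasC)
open Full (aOn)

variable {V : Type*} {G : SimpleGraph V}

/-- An outer path between two vertices of a clique closes a cycle of every admissible length. -/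
theorem hasC_of_arc [Fintype V] [DecidableEq V] {D : Finset V}
    (hD : ∀ a ∈ D, ∀ b ∈ D, a ≠ b → G.Adj a b) {x y : V} (hx : x ∈ D) (hy : y ∈ D) (hxy : x ≠ y)
    (P : List V) (hP : P ≠ []) (hnd : P.Nodup) (hPD : ∀ z ∈ P, z ∉ D)
    (hch : (x :: (P ++ [y])).IsChain G.Adj) {m : ℕ} (hlo : P.length + 2 ≤ m)
    (hhi : m ≤ #D + P.length) : HasC G m := by
  obtain ⟨M, hM, hMc⟩ := exists_subset_card_eq (s := (D.erase x).erase y) (n := m - P.length - 2)
    (by rw [card_erase_of_mem (mem_erase.2 ⟨hxy.symm, hy⟩), card_erase_of_mem hx]; omega)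
  have hMm : ∀ z ∈ M.toList, z ∈ D ∧ z ≠ x ∧ z ≠ y := fun z hz => by
    have := hM (mem_toList.1 hz)
    simp only [mem_erase] at this
    exact ⟨this.2.2, this.2.1, this.1⟩
  set Q := y :: (M.toList ++ [x]) with hQ
  have hQnd : Q.Nodup := by
    rw [hQ, List.nodup_cons, List.nodup_append']
    exact ⟨by simp [hxy.symm]; exact fun h => (hMm _ (mem_toList.2 h)).2.2 rfl,
      nodup_toList _, List.nodup_singleton _,
      by simpa using fun h => (hMm _ (mem_toList.2 h)).2.1 rfl⟩
  have hQD : ∀ z ∈ Q, z ∈ D := fun z hz => by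
    simp only [hQ, List.mem_cons, List.mem_append, List.not_mem_nil, or_false] at hz
    rcases hz with rfl | hz | rfl
    · exact hy
    · exact (hMm z hz).1
    · exact hx
  have hQch : Q.IsChain G.Adj :=
    List.isChain_iff_getElem.2 fun k hk => hD _ (hQD _ (List.getElem_mem _)) _
      (hQD _ (List.getElem_mem _)) fun h => by
        have := (List.Nodup.getElem_inj_iff hQnd).1 h
        omega
  rw [List.isChain_cons, List.isChain_append] at hch
  obtain ⟨hh, hPch, -, hl⟩ := hch
  refine ⟨P ++ Q, ⟨⟨List.nodup_append'.2 ⟨hnd, hQnd, fun z hz hz' => hPD z hz (hQD z hz')⟩,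
    fun z _ => mem_univ z, List.isChain_append.2 ⟨hPch, hQch, fun a ha b hb => ?_⟩⟩,
    by simp [hP], ?_⟩, by simp [hQ, hMc]; omega⟩
  · simp only [hQ, List.head?_cons, Option.mem_def, Option.some.injEq] at hb
    exact hl a ha b (by simp [hb])
  · rw [List.getLast_append_of_ne_nil _ (by simp [hQ]), List.head_append_of_ne_nil hP]
    have hlast : Q.getLast (by simp [hQ]) = x := by simp [hQ]
    rw [hlast]
    refine hh _ ?_
    rw [List.head?_append_of_ne_nil _ hP, List.head?_eq_some_head hP]
    exact rfl

/-- The outside neighbours of `D`. -/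
noncomputable def outN [Fintype V] (G : SimpleGraph V) (D : Finset V) : Finset V :=
  open Classical in univ.filter fun w => w ∉ D ∧ ∃ x ∈ D, G.Adj x w

theorem mem_outN [Fintype V] {D : Finset V} {w : V} :
    w ∈ outN G D ↔ w ∉ D ∧ ∃ x ∈ D, G.Adj x w := by
  simp [outN]

/-- One vertex from each of some pairwise anticomplete classes. -/
theorem indep_image [DecidableEq V] {ι : Type*} {X : Finset ι} {f : ι → V}
    (h : ∀ i ∈ X, ∀ j ∈ X, i ≠ j → ¬ G.Adj (f i) (f j)) :
    ∀ a ∈ X.image f, ∀ b ∈ X.image f, ¬ G.Adj a b := by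
  intro a ha b hb
  obtain ⟨i, hi, rfl⟩ := mem_image.1 ha
  obtain ⟨j, hj, rfl⟩ := mem_image.1 hb
  by_cases hij : i = j
  · subst hij; exact G.irrefl
  · exact h i hi j hj hij

/-- No minimal counterexample has a clique on `m - 1` vertices. -/
theorem no_clique_pred [Fintype V] [DecidableEq V] [DecidableRel G.Adj] {m n : ℕ} (hm : 4 ≤ m)
    (hnm : n ≤ m) (hnoC : ¬ HasC G m)
    (hα : ∀ I : Finset V, (∀ x ∈ I, ∀ y ∈ I, ¬ G.Adj x y) → #I < n)
    (hcard : (m - 1) * (n - 1) < Fintype.card V)
    (hdeg : ∀ x, m - 1 ≤ #(univ.filter (G.Adj x))) {D : Finset V} (hD : #D = m - 1)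
    (hDc : ∀ a ∈ D, ∀ b ∈ D, a ≠ b → G.Adj a b) : False := by
  classical
  let P : V → Finset V := fun x => univ.filter fun w => w ∉ D ∧ G.Adj x w
  have hP : ∀ x w, w ∈ P x ↔ w ∉ D ∧ G.Adj x w := by simp [P]
  -- the classes are disjoint and anticomplete
  have h1 : ∀ x ∈ D, ∀ y ∈ D, x ≠ y → ∀ w ∈ P x, w ∉ P y := by
    intro x hx y hy hxy w hw hw'
    rw [hP] at hw hw'
    exact hnoC (hasC_of_arc hDc hx hy hxy [w] (by simp) (by simp) (by simpa using hw.1)
      (by simp [hw.2, hw'.2.symm]) (by simp; omega) (by simp; omega))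
  have h2 : ∀ x ∈ D, ∀ y ∈ D, x ≠ y → ∀ w ∈ P x, ∀ w' ∈ P y, ¬ G.Adj w w' := by
    intro x hx y hy hxy w hw w' hw' hadj
    rw [hP] at hw hw'
    exact hnoC (hasC_of_arc hDc hx hy hxy [w, w'] (by simp) (by simp [hadj.ne])
      (by simp [hw.1, hw'.1]) (by simp [hw.2, hadj, hw'.2.symm]) (by simp; omega) (by simp; omega))
  have hne : ∀ x ∈ D, (P x).Nonempty := by
    intro x hx
    by_contra he
    have hsub : univ.filter (G.Adj x) ⊆ D.erase x := fun w hw => by
      rw [mem_filter] at hw
      refine mem_erase.2 ⟨hw.2.ne', ?_⟩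
      by_contra hwD
      exact he ⟨w, (hP x w).2 ⟨hwD, hw.2⟩⟩
    have h3 := card_le_card hsub
    rw [card_erase_of_mem hx, hD] at h3
    have := hdeg x
    omega
  -- one vertex per class
  have htrans : ∀ f : V → V, (∀ x ∈ D, f x ∈ P x) →
      #(D.image f) = m - 1 ∧ (∀ a ∈ D.image f, ∀ b ∈ D.image f, ¬ G.Adj a b) := by
    intro f hf
    refine ⟨?_, indep_image fun i hi j hj hij => h2 i hi j hj hij _ (hf i hi) _ (hf j hj)⟩
    rw [card_image_of_injOn, hD]
    intro i hi j hj hij
    by_contra h
    exact h1 i hi j hj h _ (hf i hi) (hij ▸ hf j hj)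
  choose! f hf using hne
  have hnm' : n = m := by
    have := hα _ (htrans f hf).2
    rw [(htrans f hf).1] at this
    omega
  -- the classes are cliques
  have hclique : ∀ x ∈ D, ∀ a ∈ P x, ∀ b ∈ P x, a ≠ b → G.Adj a b := by
    intro x hx a ha b hb hab
    by_contra hn
    set g : V → V := Function.update f x a with hg
    have hgm : ∀ y ∈ D, g y ∈ P y := fun y hy => by
      by_cases h : y = x
      · subst h; simpa [hg] using ha
      · simpa [hg, h] using hf y hy
    obtain ⟨hc, hi⟩ := htrans g hgm
    have hbI : b ∉ D.image g := by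
      intro h
      obtain ⟨y, hy, rfl⟩ := mem_image.1 h
      by_cases hyx : y = x
      · subst hyx; simp [hg] at hab
      · exact h1 y hy x hx hyx _ (hgm y hy) hb
    have := hα (insert b (D.image g)) (Full.indep_insert hi fun z hz => by
      obtain ⟨y, hy, rfl⟩ := mem_image.1 hz
      by_cases hyx : y = x
      · subst hyx; simpa [hg] using fun h : G.Adj b a => hn h.symm
      · exact fun h => h2 x hx y hy (Ne.symm hyx) b hb _ (hgm y hy) h)
    rw [card_insert_of_notMem hbI, hc] at this
    omega
  have hsize : ∀ x ∈ D, #(P x) ≤ m - 2 := by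
    intro x hx
    by_contra hlt
    have hxP : x ∉ P x := fun h => G.irrefl ((hP x x).1 h).2
    obtain ⟨K, hK, hKc⟩ := exists_subset_card_eq (s := insert x (P x)) (n := m)
      (by rw [card_insert_of_notMem hxP]; omega)
    refine hnoC (Assembly.hasC_of_clique G (by omega) K (fun a ha b hb hab => ?_) hKc)
    rcases mem_insert.1 (hK ha) with rfl | ha' <;> rcases mem_insert.1 (hK hb) with rfl | hb'
    · exact absurd rfl hab
    · exact ((hP _ b).1 hb').2
    · exact ((hP _ a).1 ha').2.symm
    · exact hclique x hx a ha' b hb' hab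
  set R := univ \ (D ∪ D.biUnion P) with hR
  have hRm : ∀ r ∈ R, r ∉ D ∧ ∀ x ∈ D, ¬ G.Adj x r := by
    intro r hr
    simp only [hR, mem_sdiff, mem_union, mem_biUnion, not_or, not_exists, not_and] at hr
    exact ⟨hr.2.1, fun x hx h => hr.2.2 x hx ((hP x r).2 ⟨hr.2.1, h⟩)⟩
  -- an outside vertex is complete to two classes
  have htwo : ∀ r ∈ R, ∃ x ∈ D, ∃ y ∈ D, x ≠ y ∧
      (∀ w ∈ P x, G.Adj r w) ∧ ∀ w ∈ P y, G.Adj r w := by
    intro r hr
    obtain ⟨hrD, hrn⟩ := hRm r hr
    have hnotP : ∀ x ∈ D, r ∉ P x := fun x hx h => hrn x hx ((hP x r).1 h).2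
    by_contra hcon
    push Not at hcon
    -- choose the transversal away from `N(r)` where possible
    let g : V → V := fun x => if h : ∃ w ∈ P x, ¬ G.Adj r w then h.choose else f x
    have hg : ∀ x ∈ D, g x ∈ P x := fun x hx => by
      simp only [g]
      split_ifs with h
      · exact h.choose_spec.1
      · exact hf x hx
    have hgr : ∀ x ∈ D, G.Adj r (g x) → ∀ w ∈ P x, G.Adj r w := fun x hx h w hw => by
      by_contra hn
      have he : ∃ w ∈ P x, ¬ G.Adj r w := ⟨w, hw, hn⟩
      simp only [g, dif_pos he] at h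
      exact he.choose_spec.2 h
    obtain ⟨hc, hi⟩ := htrans g hg
    by_cases hex : ∃ x ∈ D, G.Adj r (g x)
    · obtain ⟨x, hx, hxr⟩ := hex
      -- swap `g x` for `x` and add `r`
      have hrest : ∀ y ∈ D, y ≠ x → ¬ G.Adj r (g y) := fun y hy hyx h =>
        let ⟨w, hw, hwn⟩ := hcon x hx y hy hyx.symm (hgr x hx hxr)
        hwn (hgr y hy h w hw)
      have hxI : ∀ y ∈ D, y ≠ x → ¬ G.Adj x (g y) := fun y hy hyx h =>
        h1 y hy x hx hyx _ (hg y hy) ((hP x _).2 ⟨((hP y _).1 (hg y hy)).1, h⟩)
      have := hα (insert r (insert x ((D.erase x).image g)))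
        (Full.indep_insert (Full.indep_insert (fun a ha b hb =>
          hi a (image_subset_image (erase_subset _ _) ha) b
            (image_subset_image (erase_subset _ _) hb)) fun z hz => by
            obtain ⟨y, hy, rfl⟩ := mem_image.1 hz
            exact hxI y (mem_of_mem_erase hy) (ne_of_mem_erase hy)) fun z hz => by
          rcases mem_insert.1 hz with rfl | hz
          · exact fun h => hrn _ hx h.symm
          · obtain ⟨y, hy, rfl⟩ := mem_image.1 hz
            exact hrest y (mem_of_mem_erase hy) (ne_of_mem_erase hy))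
      rw [card_insert_of_notMem, card_insert_of_notMem, card_image_of_injOn,
        card_erase_of_mem hx, hD] at this
      · omega
      · intro i hi' j hj hij
        by_contra h
        exact h1 i (mem_of_mem_erase hi') j (mem_of_mem_erase hj) h _ (hg i (mem_of_mem_erase hi'))
          (hij ▸ hg j (mem_of_mem_erase hj))
      · intro h
        obtain ⟨y, hy, e⟩ := mem_image.1 h
        exact ((hP y _).1 (hg y (mem_of_mem_erase hy))).1 (e ▸ hx)
      · intro h
        rcases mem_insert.1 h with rfl | h
        · exact hrD hx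
        · obtain ⟨y, hy, e⟩ := mem_image.1 h
          exact hnotP y (mem_of_mem_erase hy) (e ▸ hg y (mem_of_mem_erase hy))
    · push Not at hex
      have := hα (insert r (D.image g)) (Full.indep_insert hi fun z hz => by
        obtain ⟨y, hy, rfl⟩ := mem_image.1 hz
        exact hex y hy)
      rw [card_insert_of_notMem, hc] at this
      · omega
      · intro h
        obtain ⟨y, hy, e⟩ := mem_image.1 h
        exact hnotP y hy (e ▸ hg y hy)
  have hcov : (univ : Finset V) = D ∪ D.biUnion P ∪ R := by
    rw [hR, union_sdiff_of_subset (subset_univ _)]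
  have hN : Fintype.card V ≤ (m - 1) + ∑ x ∈ D, #(P x) + #R := by
    rw [← card_univ, hcov]
    have h3 := card_union_le (D ∪ D.biUnion P) R
    have h4 := card_union_le D (D.biUnion P)
    have h5 := card_biUnion_le (s := D) (t := P)
    omega
  subst hnm'
  rcases Nat.lt_or_ge n 5 with h5 | h5
  · -- `n = 4`: such a vertex sees two singleton classes and is determined by them
    obtain rfl : n = 4 := by omega
    set S := D.filter fun x => #(P x) = 1 with hS
    have hone : ∀ r ∈ R, ∀ x ∈ D, (∀ w ∈ P x, G.Adj r w) → x ∈ S := by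
      intro r hr x hx hall
      refine mem_filter.2 ⟨hx, ?_⟩
      by_contra h1'
      obtain ⟨w, hw, w', hw', hne'⟩ := one_lt_card.1 (show 1 < #(P x) by
        have := card_pos.2 ⟨_, hf x hx⟩; omega)
      have hxw := ((hP x w).1 hw).2
      have hxw' := ((hP x w').1 hw').2
      have e1 : x ≠ r := fun e => (hRm r hr).1 (e ▸ hx)
      refine hnoC ⟨[x, w, r, w'], ⟨⟨?_, fun z _ => mem_univ z, ?_⟩, by simp, ?_⟩, by simp⟩
      · simp [hxw.ne, hxw'.ne, hne', e1, (hall w hw).ne', (hall w' hw').ne]
      · simp [hxw, (hall w hw).symm, hall w' hw']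
      · simpa using hxw'.symm
    choose! cx hcx cy hcy hne2 hax hay using htwo
    have hRc : #R ≤ #(S.powersetCard 2) := by
      refine card_le_card_of_injOn (fun r => {cx r, cy r}) (fun r hr => ?_) (fun r hr r' hr' e => ?_)
      · exact mem_powersetCard.2 ⟨by
          simp [insert_subset_iff, hone r hr _ (hcx r hr) (hax r hr),
            hone r hr _ (hcy r hr) (hay r hr)], card_pair (hne2 r hr)⟩
      · by_contra hrr
        rw [mem_coe] at hr hr'
        have hcase : ∀ z, z = cx r ∨ z = cy r → G.Adj r' (f z) := by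
          intro z hz
          have : z ∈ ({cx r', cy r'} : Finset V) := by
            rw [← show ({cx r, cy r} : Finset V) = {cx r', cy r'} from e]; simpa using hz
          rcases mem_insert.1 this with rfl | h
          · exact hax r' hr' _ (hf _ (hcx r' hr'))
          · rw [mem_singleton.1 h]
            exact hay r' hr' _ (hf _ (hcy r' hr'))
        set w := f (cx r) with hwdef
        set w' := f (cy r) with hw'def
        have hw := hax r hr w (hf _ (hcx r hr))
        have hw' := hay r hr w' (hf _ (hcy r hr))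
        have hr'w : G.Adj r' w := hcase _ (Or.inl rfl)
        have hr'w' : G.Adj r' w' := hcase _ (Or.inr rfl)
        have hww : w ≠ w' := fun e' =>
          h1 _ (hcx r hr) _ (hcy r hr) (hne2 r hr) w (hf _ (hcx r hr)) (e' ▸ hf _ (hcy r hr))
        refine hnoC ⟨[r, w, r', w'], ⟨⟨?_, fun z _ => mem_univ z, ?_⟩, by simp, ?_⟩, by simp⟩
        · simp [hw.ne, hw'.ne, hww, hrr, hr'w.ne', hr'w'.ne]
        · simp [hw, hr'w.symm, hr'w']
        · simpa using hw'.symm
    rw [card_powersetCard] at hRc
    have hsum : ∑ x ∈ D, #(P x) + #S ≤ 6 := by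
      have hle : ∀ x ∈ D, #(P x) + (if x ∈ S then 1 else 0) ≤ 2 := by
        intro x hx
        have := hsize x hx
        split_ifs with h
        · have := (mem_filter.1 h).2; omega
        · omega
      have h6 := sum_le_sum hle
      rw [sum_add_distrib, sum_boole, sum_const, smul_eq_mul, hD] at h6
      have : D.filter (fun x => x ∈ S) = S := by
        ext x; simp +contextual [hS]
      rw [this] at h6
      simpa using h6
    have hS3 : #S ≤ 3 := by
      have := card_le_card (filter_subset (fun x => #(P x) = 1) D)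
      rw [← hS, hD] at this
      exact this
    have hch : (#S).choose 2 ≤ #S := by
      interval_cases h : #S <;> decide
    omega
  · have hR0 : R = ∅ := by
      rw [eq_empty_iff_forall_notMem]
      intro r hr
      obtain ⟨x, hx, y, hy, hxy, hall, hall'⟩ := htwo r hr
      have hwx := hall _ (hf x hx)
      have hwy := hall' _ (hf y hy)
      have hfne : f x ≠ f y := fun e => h1 x hx y hy hxy _ (hf x hx) (e ▸ hf y hy)
      exact hnoC (hasC_of_arc hDc hx hy hxy [f x, r, f y] (by simp)
        (by simp [hwx.ne', hwy.ne, hfne])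
        (by simp [((hP _ _).1 (hf x hx)).1, (hRm r hr).1, ((hP _ _).1 (hf y hy)).1])
        (by simp [((hP _ _).1 (hf x hx)).2, hwx.symm, hwy, ((hP _ _).1 (hf y hy)).2.symm])
        (by simp; omega) (by simp; omega))
    rw [hR0, card_empty, Nat.add_zero] at hN
    have h6 := sum_le_sum hsize
    rw [sum_const, smul_eq_mul, hD] at h6
    have h7 : (n - 1) * (n - 1) = (n - 1) * (n - 2) + (n - 1) := by
      rw [← Nat.mul_succ]; congr 1; omega
    omega

end Vale.Agent.P048.Small
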