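import Vale.Agent.P048.Small.M8Cover
import Vale.Agent.P048.Full.Second
import Vale.Agent.P048.Full.CliqueNbr
import Vale.Agent.P048.Full.Upper

/-!
P048, `m = 8`: a largest clique `D` has four to six vertices and some early layer from it holds a
clique `D'` on four.  The two give eight pairwise non-adjacent vertices unless `#D = 4`, and then a
third clique, or the vertices far from `D`, give them.
-/

namespace Vale.Agent.P048.Small

open Finset
open Close (HasCycle)
open Full (Ctx NbrIndep LayerSets ball rlayer GoodUpTo Good aOn)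

variable {V : Type*} [Fintype V] [DecidableEq V] {G : SimpleGraph V} {n : ℕ}

/-- The clique neighbourhood lemma at `m = 8`. -/
theorem nbrIndep8 [DecidableRel G.Adj] (h : Ctx G 8 n) {D : Finset V}
    (hD : G.IsClique (D : Set V)) (h4 : 4 ≤ #D) : NbrIndep G D := fun _ hU hne =>
  Full.clique_nbr_indep (m := 8) (fun v => h.degree v) h.noC hD
    (Full.clique_lt h (by omega) hD) (by omega) (by omega) hU hne

/-- A clique on four vertices among the neighbours of a largest clique. -/
theorem beside_false [DecidableRel G.Adj] (h : Ctx G 8 n) (hn : n ≤ 8) {D E : Finset V}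
    (hD : G.IsClique (D : Set V)) (h4 : 4 ≤ #D)
    (hmax : ∀ F : Finset V, G.IsClique (F : Set V) → #F ≤ #D) (hE : G.IsClique (E : Set V))
    (hEc : #E = 4) (hEs : E ⊆ rlayer G D 1) : False := by
  have hdis : Disjoint D E := disjoint_right.2 fun y hy hyD => (mem_sdiff.1 (hEs hy)).2 hyD
  obtain ⟨x, hx, hxc, honly⟩ := Full.complete_center h hD hE hdis (by omega) (by omega) (by omega)
    (by omega) fun y hy => by
      obtain ⟨w, hw, hwy⟩ := Full.exists_rparent (hEs hy)
      exact ⟨w, hw, hwy⟩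
  have hxE : x ∉ E := disjoint_left.1 hdis hx
  have hE5 : G.IsClique ((insert x E : Finset V) : Set V) := by
    rw [coe_insert]; exact hE.insert fun y hy _ => hxc y hy
  have h5 := hmax _ hE5
  rw [card_insert_of_notMem hxE] at h5
  obtain ⟨I, hI, cI, mI⟩ := nbrIndep8 h hD h4 (D.erase x) (erase_subset _ _)
    (card_pos.1 (by rw [card_erase_of_mem hx]; omega))
  obtain ⟨I', hI', cI', mI'⟩ := nbrIndep8 h hE5 (by rw [card_insert_of_notMem hxE]; omega) E
    (subset_insert _ _) (card_pos.1 (by omega))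
  have key : ∀ w ∈ I, ∀ w' ∈ I', ¬ (w = w' ∨ G.Adj w w') := by
    intro w hw w' hw' hc
    obtain ⟨hwD, a, ha, haw⟩ := mI w hw
    obtain ⟨hwE', y, hy, hyw⟩ := mI' w' hw'
    rw [mem_erase] at ha
    simp only [mem_insert, not_or] at hwE'
    have hwE : w ∉ E := fun hc => ha.1 (honly a ha.2 w hc haw)
    have hwD' : w' ∉ D := fun hc => hwE'.1 (honly w' hc y hy hyw.symm)
    obtain ⟨y', hy', hne⟩ := exists_mem_ne (show 1 < #E by omega) y
    exact h.noC (Full.hasCycle_of_links hD hE hdis (by omega) (by omega) (by omega)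
      (Full.isLink_mid ha.2 hy ⟨hwD, hwE⟩ ⟨hwD', hwE'.2⟩ haw hyw hc) (M₂ := [])
      ⟨hx, hy', by simp, by simp, by simp [hxc y' hy']⟩ ha.1 hne.symm (by simp)
      (by have := Full.length_mid_le w w'; simp; omega))
  obtain ⟨J, -, hJ, hJc⟩ := Full.exists_union_indep (Z := ∅) (fun a ha b hb e => hI ha hb e.ne e)
    (fun a ha b hb e => hI' ha hb e.ne e) fun w hw w' hw' hc => absurd hc (key w hw w' hw')
  have := h.alpha J hJ
  rw [card_erase_of_mem hx] at cI
  simp only [card_empty] at hJc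
  omega

/-- Three cliques on four vertices, the first apart from the other two. -/
theorem three_false [DecidableRel G.Adj] (h : Ctx G 8 n) (hn : n ≤ 8) {A B C : Finset V}
    (hA : G.IsClique (A : Set V)) (hB : G.IsClique (B : Set V)) (hC : G.IsClique (C : Set V))
    (a4 : #A = 4) (b4 : #B = 4) (c4 : #C = 4) (hAB : Disjoint A B) (hAC : Disjoint A C)
    (hBC : Disjoint B C) (hnoB : ∀ x ∈ A, ∀ y ∈ B, ¬ G.Adj x y)
    (hnoC : ∀ x ∈ A, ∀ y ∈ C, ¬ G.Adj x y) : False := by
  obtain ⟨z, hz⟩ := (⟨h.noC, hA, hB, hAB, a4.ge, b4.ge, hnoB⟩ : Apart8 G A B).exists_cover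
  obtain ⟨z', hz'⟩ := (⟨h.noC, hA, hC, hAC, a4.ge, c4.ge, hnoC⟩ : Apart8 G A C).exists_cover
  obtain ⟨Z, hL, hZB, hZC⟩ := exists_loss h.noC hB hC hBC b4.ge c4.ge
  obtain ⟨S, hS, hSc⟩ := Full.three_of_loss hAB hAC hnoB hnoC hz hz' hL hZB hZC
    (nbrIndep8 h hA a4.ge) (nbrIndep8 h hB b4.ge) (nbrIndep8 h hC c4.ge) (by omega) (by omega)
    (by omega)
  have := Full.indep_lt h hS
  omega

omit [Fintype V] in
/-- Without a clique on four and without three independent vertices there are at most eight. -/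
theorem card_le_eight [Finite V] {S : Finset V}
    (hk : ∀ E ⊆ S, G.IsClique (E : Set V) → #E < 4)
    (ha : ∀ J ⊆ S, (∀ x ∈ J, ∀ y ∈ J, ¬ G.Adj x y) → #J ≤ 2) : #S ≤ 8 := by
  classical
  cases nonempty_fintype V
  by_contra hc
  obtain ⟨S', hS', hc'⟩ := exists_subset_card_eq (s := S) (n := 9) (by omega)
  have hdeg : ∀ v ∈ S', #(S'.filter (G.Adj v)) = 5 := by
    intro v hv
    set A := S'.filter (G.Adj v) with hA
    set B := (S'.filter fun w => ¬ G.Adj v w).erase v with hB
    have hAB : #A + #B = 8 := by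
      have h1 := card_filter_add_card_filter_not (s := S') (G.Adj v)
      have hv' : v ∈ S'.filter fun w => ¬ G.Adj v w := mem_filter.2 ⟨hv, G.irrefl⟩
      rw [hB, card_erase_of_mem hv']
      have := card_pos.2 ⟨v, hv'⟩
      rw [← hA] at h1
      omega
    have hB3 : #B < 4 := hk B ((erase_subset _ _).trans ((filter_subset _ _).trans hS'))
      fun a ha' b hb hab => by
      by_contra he
      simp only [hB, coe_erase, Set.mem_sdiff, mem_coe, mem_filter, Set.mem_singleton_iff] at ha' hb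
      have := ha {v, a, b} (by simp [insert_subset_iff, hS' hv, hS' ha'.1.1, hS' hb.1.1]) (by
        simp [ha'.1.2, hb.1.2, he, G.adj_comm a v, G.adj_comm b v, G.adj_comm b a])
      rw [card_insert_of_notMem (by simp [Ne.symm ha'.2, Ne.symm hb.2]), card_pair hab] at this
      omega
    have hA5 : #A ≤ 5 := by
      rcases A.eq_empty_or_nonempty with e | ⟨u, hu⟩
      · simp [e]
      set P := A.filter (G.Adj u) with hP
      set Q := (A.filter fun w => ¬ G.Adj u w).erase u with hQ
      have hAS : ∀ w ∈ A, w ∈ S ∧ G.Adj v w := fun w hw =>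
        ⟨hS' (mem_filter.1 hw).1, (mem_filter.1 hw).2⟩
      have hPQ : #P + #Q + 1 = #A := by
        have h1 := card_filter_add_card_filter_not (s := A) (G.Adj u)
        have hu' : u ∈ A.filter fun w => ¬ G.Adj u w := mem_filter.2 ⟨hu, G.irrefl⟩
        rw [hQ, card_erase_of_mem hu']
        have := card_pos.2 ⟨u, hu'⟩
        rw [← hP] at h1
        omega
      have hP2 : #P ≤ 2 := ha P (fun w hw => (hAS w (mem_filter.1 hw).1).1) fun a ha' b hb hab => by
        obtain ⟨h1, h2⟩ := mem_filter.1 ha'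
        obtain ⟨h3, h4⟩ := mem_filter.1 hb
        have h5 := (hAS u hu).2
        have h6 := (hAS a h1).2
        have h7 := (hAS b h3).2
        have := hk {v, u, a, b} (by simp [insert_subset_iff, hS' hv, (hAS u hu).1, (hAS a h1).1,
          (hAS b h3).1]) (by
          simp [SimpleGraph.isClique_insert, h2, h4, h5, h6, h7, hab])
        rw [card_insert_of_notMem (by simp [h5.ne, h6.ne, h7.ne]),
          card_insert_of_notMem (by simp [h2.ne, h4.ne]), card_pair hab.ne] at this
        omega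
      have hQ2 : #Q ≤ 2 := by
        have := hk (insert v Q) (insert_subset (hS' hv) fun w hw =>
            (hAS w (mem_filter.1 (mem_of_mem_erase hw)).1).1) (by
          rw [coe_insert]
          refine SimpleGraph.IsClique.insert (fun a ha' b hb hab => ?_) fun b hb _ =>
            (hAS b (mem_filter.1 (mem_of_mem_erase hb)).1).2
          by_contra he
          simp only [hQ, coe_erase, Set.mem_sdiff, mem_coe, mem_filter, Set.mem_singleton_iff]
            at ha' hb
          have := ha {u, a, b} (by simp [insert_subset_iff, (hAS u hu).1, (hAS a ha'.1.1).1,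
            (hAS b hb.1.1).1]) (by
            simp [ha'.1.2, hb.1.2, he, G.adj_comm a u, G.adj_comm b u, G.adj_comm b a])
          rw [card_insert_of_notMem (by simp [Ne.symm ha'.2, Ne.symm hb.2]), card_pair hab] at this
          omega)
        rw [card_insert_of_notMem fun hc => G.irrefl (hAS v (mem_filter.1
          (mem_of_mem_erase hc)).1).2] at this
        rw [← hQ] at *
        omega
      omega
    omega
  let H : SimpleGraph V :=
    { Adj := fun a b => G.Adj a b ∧ a ∈ S' ∧ b ∈ S'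
      symm := ⟨fun a b h => ⟨h.1.symm, h.2.2, h.2.1⟩⟩
      loopless := ⟨fun a h => G.irrefl h.1⟩ }
  have h1 := H.sum_degrees_eq_twice_card_edges
  have h2 : ∑ v, H.degree v = ∑ v ∈ S', 5 := by
    rw [← sum_subset (subset_univ S') fun v _ hv => ?_]
    · refine sum_congr rfl fun v hv => ?_
      rw [← hdeg v hv, ← SimpleGraph.card_neighborFinset_eq_degree]
      congr 1
      ext w
      simp [H, hv, and_comm]
    · rw [← SimpleGraph.card_neighborFinset_eq_degree, card_eq_zero,
        eq_empty_iff_forall_notMem]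
      intro w hw
      simp [H] at hw
      exact hv hw.2.1
  rw [h2, sum_const, smul_eq_mul, hc'] at h1
  omega

/-- Far from the second clique there is no room. -/
theorem far_false [DecidableRel G.Adj] (h : Ctx G 8 n) (hn : n = 8) {D D' : Finset V}
    (hD : G.IsClique (D : Set V)) (hDc : #D = 4)
    (hmax : ∀ F : Finset V, G.IsClique (F : Set V) → #F ≤ #D) (hD' : G.IsClique (D' : Set V))
    (hD'c : #D' = 4) (hD's : D' ⊆ rlayer G D 2)
    (M : LayerSets G D) (hgood : GoodUpTo G D D' 3 3)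
    (hfar : 2 ≤ aOn G (univ \ ball G D 3)) : False := by
  classical
  set T := univ \ ball G D 3 with hT
  have hfarw : ∀ w ∈ ball G D 2, ∀ t ∈ T, w ≠ t ∧ ¬ G.Adj w t := fun w hw t ht =>
    ⟨fun e => (mem_sdiff.1 ht).2 (e ▸ Full.ball_mono (show 2 ≤ 3 by omega) hw),
      fun e => (mem_sdiff.1 ht).2 (Full.adj_mem_ball hw e)⟩
  obtain ⟨J, hJT, hJc, hJi⟩ := Full.exists_aOn G T
  -- an independent set of the second ball extends by `J`
  have grow : ∀ X ⊆ ball G D 2, (∀ x ∈ X, ∀ y ∈ X, ¬ G.Adj x y) → #X + #J < n := by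
    intro X hX hXi
    have := h.alpha (X ∪ J) fun a ha b hb e => by
      rcases mem_union.1 ha with ha | ha <;> rcases mem_union.1 hb with hb | hb
      · exact hXi a ha b hb e
      · exact (hfarw a (hX ha) b (hJT hb)).2 e
      · exact (hfarw b (hX hb) a (hJT ha)).2 e.symm
      · exact hJi a ha b hb e
    rw [card_union_of_disjoint (disjoint_left.2 fun a ha ha' =>
      (hfarw a (hX ha) a (hJT ha')).1 rfl)] at this
    omega
  rcases Nat.lt_or_ge #J 3 with hJ2 | hJ3
  · -- at most eight vertices are far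
    have hT8 : #T ≤ 8 := by
      refine card_le_eight (G := G) (fun E hE hEcl => ?_) fun K hK hKi => ?_
      · by_contra hc
        obtain ⟨E', hE', hE'c⟩ := exists_subset_card_eq (s := E) (n := 4) (by omega)
        have hlev : ∀ y ∈ E', ∀ x ∈ ball G D 2, x ≠ y ∧ ¬ G.Adj x y := fun y hy x hx =>
          hfarw x hx y (hE (hE' hy))
        have hD2 : D ⊆ ball G D 2 := Full.ball_mono (Nat.zero_le 2)
        have hD'2 : D' ⊆ ball G D 2 := fun y hy => Full.rlayer_subset_ball 2 (hD's hy)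
        exact three_false h (by omega) hD hD' (hEcl.subset (coe_subset.2 hE')) hDc hD'c hE'c
          (disjoint_right.2 fun y hy hyD => (mem_sdiff.1 (hD's hy)).2
            (Full.ball_mono (Nat.zero_le 1) hyD))
          (disjoint_right.2 fun y hy hyD => (hlev y hy y (hD2 hyD)).1 rfl)
          (disjoint_right.2 fun y hy hyD => (hlev y hy y (hD'2 hyD)).1 rfl)
          (fun x hx y hy e => by
            have := (Full.adj_level (show x ∈ rlayer G D 0 from hx) (hD's hy) e).1
            omega)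
          fun x hx y hy => (hlev y hy x (hD2 hx)).2
      · have := Full.card_le_aOn hK hKi
        omega
    have h1 := grow (M.par 2) (fun x hx => by
      obtain ⟨s, hs, -, hxs⟩ := M.mem_par hx
      exact Full.ball_mono hs (Full.rlayer_subset_ball s (M.sub s hxs))) (M.par_ind 2)
    have h2 := h.alpha _ (M.par_ind 3)
    have h3 := M.card_par_add 2
    rw [M.sel_zero (card_pos.1 (by omega)) fun a ha b hb => hD ha hb,
      show (2 : ℕ) + 1 = 3 from rfl] at h3
    have h4 := Full.card_ball_le M hgood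
    have h5 := h.card
    have h6 : Fintype.card V ≤ #(ball G D 3) + #T := by
      rw [← card_univ, ← card_sdiff_add_card_eq_card (subset_univ (ball G D 3)), ← hT]
      omega
    subst hn
    omega
  -- three far vertices, independent
  obtain ⟨I, hI, hIc, hIn⟩ := nbrIndep8 h hD hDc.ge D subset_rfl (card_pos.1 (by omega))
  have hI2 : ∀ w ∈ I, w ∈ ball G D 2 := fun w hw => by
    obtain ⟨hwD, x, hx, e⟩ := hIn w hw
    exact Full.ball_mono (show 1 ≤ 2 by omega) (Full.adj_mem_ball hx e)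
  have hIi : ∀ a ∈ I, ∀ b ∈ I, ¬ G.Adj a b := fun a ha b hb e => hI ha hb e.ne e
  by_cases hfree : ∃ y ∈ D', ∀ w ∈ I, ¬ G.Adj y w
  · obtain ⟨y, hy, hyI⟩ := hfree
    have := grow (insert y I) (insert_subset (Full.rlayer_subset_ball 2 (hD's hy)) hI2)
      (Full.indep_insert hIi hyI)
    rw [card_insert_of_notMem fun hc => by
      obtain ⟨-, x, hx, e⟩ := hIn y hc
      have := (Full.adj_level (show x ∈ rlayer G D 0 from hx) (hD's hy) e).1
      omega] at this
    omega
  push Not at hfree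
  choose! f hfI hf using hfree
  have hdis : Disjoint D D' := disjoint_right.2 fun y hy hyD => (mem_sdiff.1 (hD's hy)).2
    (Full.ball_mono (Nat.zero_le 1) hyD)
  have hno : ∀ x ∈ D, ∀ y ∈ D', ¬ G.Adj x y := fun x hx y hy e => by
    have := (Full.adj_level (show x ∈ rlayer G D 0 from hx) (hD's hy) e).1
    omega
  have hp : Apart8 G D D' := ⟨h.noC, hD, hD', hdis, hDc.ge, hD'c.ge, hno⟩
  have hoff : ∀ w x, x ∈ D → G.Adj x w → w ∉ D' := fun w x hx e hc => hno x hx w hc e
  -- two of the chosen neighbours differ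
  obtain ⟨y₁, hy₁, y₂, hy₂, hne⟩ : ∃ y₁ ∈ D', ∃ y₂ ∈ D', f y₁ ≠ f y₂ := by
    by_contra hc
    push Not at hc
    obtain ⟨y₀, hy₀⟩ := card_pos.1 (show 0 < #D' by omega)
    have hw : f y₀ ∉ D' := by
      obtain ⟨-, x, hx, e⟩ := hIn _ (hfI y₀ hy₀)
      exact hoff _ x hx e
    have := hmax (insert (f y₀) D') (by
      rw [coe_insert]
      exact hD'.insert fun y hy _ => (hc y hy y₀ hy₀ ▸ hf y hy).symm)
    rw [card_insert_of_notMem hw] at this
    omega
  set w₁ := f y₁ with hw₁
  set w₂ := f y₂ with hw₂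
  obtain ⟨hw₁D, x, hx, hxw₁⟩ := hIn w₁ (hfI y₁ hy₁)
  obtain ⟨hw₂D, x₂, hx₂, hxw₂⟩ := hIn w₂ (hfI y₂ hy₂)
  have hy : y₁ ≠ y₂ := fun e => hne (by rw [hw₁, hw₂, e])
  have c₁ : ∀ {a}, a ∈ D → G.Adj a w₁ → Full.Conflict G D D' a w₁ w₁ y₁ := fun ha e =>
    ⟨ha, hy₁, ⟨hw₁D, hoff _ _ hx hxw₁⟩, ⟨hw₁D, hoff _ _ hx hxw₁⟩, e, hf y₁ hy₁, Or.inl rfl⟩
  have c₂ : ∀ {a}, a ∈ D → G.Adj a w₂ → Full.Conflict G D D' a w₂ w₂ y₂ := fun ha e =>
    ⟨ha, hy₂, ⟨hw₂D, hoff _ _ hx₂ hxw₂⟩, ⟨hw₂D, hoff _ _ hx₂ hxw₂⟩, e, hf y₂ hy₂, Or.inl rfl⟩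
  have hap : Full.Apart2 w₁ w₁ w₂ w₂ := ⟨hne, hne, hne, hne⟩
  obtain rfl : x = x₂ := by
    by_contra hc
    exact hp.close (c₁ hx hxw₁) (c₂ hx₂ hxw₂) hap hc hy
  obtain ⟨K, hK, hKc, hKn⟩ := nbrIndep8 h hD hDc.ge (D.erase x) (erase_subset _ _)
    (card_pos.1 (by rw [card_erase_of_mem hx]; omega))
  have key : ∀ w ∈ K, w ≠ w₁ ∧ w ≠ w₂ ∧ ¬ G.Adj w w₁ ∧ ¬ G.Adj w w₂ := by
    intro w hw
    obtain ⟨hwD, a, ha, haw⟩ := hKn w hw
    obtain ⟨hax, haD⟩ := mem_erase.1 ha
    have n₁ : w ≠ w₁ := fun e => hp.close (c₁ haD (e ▸ haw)) (c₂ hx hxw₂) hap hax hy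
    have n₂ : w ≠ w₂ := fun e => hp.close (c₁ hx hxw₁) (c₂ haD (e ▸ haw)) hap hax.symm hy
    refine ⟨n₁, n₂, fun e => ?_, fun e => ?_⟩
    · exact hp.close (⟨haD, hy₁, ⟨hwD, hoff _ _ haD haw⟩, (c₁ hx hxw₁).offr, haw, hf y₁ hy₁,
        Or.inr e⟩ : Full.Conflict G D D' a w w₁ y₁) (c₂ hx hxw₂) ⟨n₂, n₂, hne, hne⟩ hax hy
    · exact hp.close (⟨haD, hy₂, ⟨hwD, hoff _ _ haD haw⟩, (c₂ hx hxw₂).offr, haw, hf y₂ hy₂,
        Or.inr e⟩ : Full.Conflict G D D' a w w₂ y₂) (c₁ hx hxw₁) ⟨n₁, n₁, hne.symm, hne.symm⟩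
        hax hy.symm
  have := grow (insert w₁ (insert w₂ K)) (insert_subset (hI2 _ (hfI y₁ hy₁))
      (insert_subset (hI2 _ (hfI y₂ hy₂)) fun w hw => by
        obtain ⟨hwD, a, ha, e⟩ := hKn w hw
        exact Full.ball_mono (show 1 ≤ 2 by omega) (Full.adj_mem_ball (mem_of_mem_erase ha) e)))
    (Full.indep_insert (Full.indep_insert (fun a ha b hb e => hK ha hb e.ne e)
      fun w hw e => (key w hw).2.2.2 e.symm) fun w hw => by
        rcases mem_insert.1 hw with rfl | hw
        · exact hIi _ (hfI y₁ hy₁) _ (hfI y₂ hy₂)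
        · exact fun e => (key w hw).2.2.1 e.symm)
  rw [card_insert_of_notMem, card_insert_of_notMem, hKc, card_erase_of_mem hx] at this
  · omega
  · exact fun hc => (key _ hc).2.1 rfl
  · intro hc
    rcases mem_insert.1 hc with e | e
    exacts [hne e, (key _ e).1 rfl]

/-- The standing hypotheses are contradictory for `m = 8`. -/
theorem refute_eight [DecidableRel G.Adj] (h : Ctx G 8 n) (hn : n ≤ 8) : False := by
  classical
  have hdeg : ∀ x, 8 - 1 ≤ #(univ.filter (G.Adj x)) := fun x => (h.degree x).trans (le_of_eq (by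
    rw [← SimpleGraph.card_neighborFinset_eq_degree]
    congr 1
    ext w
    simp))
  obtain ⟨D₀, hD₀c, hD₀⟩ := Full.exists_clique h.connected (q := 3) (by omega) (by omega) hn
    h.not_hasC h.alpha h.card hdeg h.small
  have hD₀cl : G.IsClique (D₀ : Set V) := fun a ha b hb => hD₀ a ha b hb
  obtain ⟨D, hD, hmax⟩ := ((univ : Finset V).powerset.filter
    fun E : Finset V => G.IsClique (E : Set V)).exists_max_image (fun E => #E) ⟨D₀, by simp [hD₀cl]⟩
  replace hD := (mem_filter.1 hD).2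
  replace hmax : ∀ F : Finset V, G.IsClique (F : Set V) → #F ≤ #D :=
    fun F hF => hmax F (by simp [hF])
  have h4 : 4 ≤ #D := by have := hmax D₀ hD₀cl; omega
  have h6 : #D ≤ 6 := by
    by_contra hc
    obtain ⟨E, hE, hEc⟩ := exists_subset_card_eq (s := D) (n := 7) (by omega)
    exact no_clique_pred (by omega) hn h.not_hasC h.alpha h.card hdeg (D := E) (by omega)
      fun a ha b hb hab => hD (hE ha) (hE hb) hab
  have hne : D.Nonempty := card_pos.1 (by omega)
  have hR : ∀ a ∈ D, ∀ b ∈ D, a ≠ b → G.Adj a b := fun a ha b hb => hD ha hb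
  have hW := nbrIndep8 h hD h4
  obtain ⟨M⟩ := Full.exists_layerSets G D
  have hA1 := Full.card_par_one M hW hne
  have hstep : GoodUpTo G D ∅ 3 2 → #D + 2 ≤ #(M.par 2) := by
    intro hg
    have h1 := Full.growth h hne hR M (t := 1) (by omega) hg
    simp only [card_empty, show (1 : ℕ) + 1 = 2 from rfl] at h1
    omega
  have hbad : ∃ s, 1 ≤ s ∧ s ≤ 3 ∧ ¬ Good G (rlayer G D s \ ∅) 3 := by
    by_contra hc
    push Not at hc
    have h2 := hstep fun s hs hs' => hc s hs (by omega)
    have h1 := Full.growth h hne hR M (t := 2) (E := ∅) (q := 3) (by omega)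
      fun s hs hs' => hc s hs (by omega)
    have := h.alpha _ (M.par_ind 3)
    simp only [card_empty, show (2 : ℕ) + 1 = 3 from rfl] at h1
    omega
  obtain ⟨hj1, hj3, hjbad⟩ := Nat.find_spec hbad
  set j := Nat.find hbad with hjdef
  rw [sdiff_empty] at hjbad
  rcases h.clique_or_deep (q := 3) le_rfl (Or.inr rfl) hne hR hj1 subset_rfl hjbad with
    ⟨D', hD's, hD'c, hD'⟩ | ⟨hdeep, -, -⟩
  swap
  · omega
  have hj2 : 2 ≤ j := by
    by_contra hc
    exact beside_false h hn hD h4 hmax hD' hD'c ((show j = 1 by omega) ▸ hD's)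
  have hno : ∀ x ∈ D, ∀ y ∈ D', ¬ G.Adj x y := fun x hx y hy e => by
    have := (Full.adj_level (show x ∈ rlayer G D 0 from hx) (hD's hy) e).1
    omega
  have hdis : Disjoint D D' := disjoint_right.2 fun y hy hyD => by
    have := Full.rlayer_level (hD's hy) (show y ∈ rlayer G D 0 from hyD)
    omega
  obtain ⟨I, I', S, hSs, hS, hSc, hIn, hI'n⟩ :=
    (⟨h.noC, hD, hD', hdis, h4, hD'c.ge, hno⟩ : Apart8 G D D').exists_indep hW
      (nbrIndep8 h hD' hD'c.ge)
  have hSn := Full.indep_lt h hS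
  have hk : #D = 4 := by omega
  have hn8 : n = 8 := by omega
  have hcover : ∀ u, u ∈ ball G D (j + 2) := by
    intro u
    have hSb : ∀ w ∈ S, w ∈ ball G D (j + 1) := fun w hw => by
      rcases mem_union.1 (hSs hw) with hw | hw
      · obtain ⟨-, x, hx, e⟩ := hIn w hw
        exact Full.adj_mem_ball (Full.ball_mono (Nat.zero_le j) hx) e
      · obtain ⟨-, y, hy, e⟩ := hI'n w hw
        exact Full.adj_mem_ball (Full.rlayer_subset_ball j (hD's hy)) e
    rcases h.dominates (show n ≤ #S + 1 by omega) (fun a ha b hb e => hS ha hb e.ne e) u with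
      hu | ⟨w, hw, e⟩
    · exact Full.ball_mono (show j + 1 ≤ j + 2 by omega) (hSb u hu)
    · exact Full.adj_mem_ball (hSb w hw) e
  have hbad2 : ∃ s, 1 ≤ s ∧ s ≤ j + 2 ∧ ¬ Good G (rlayer G D s \ D') 3 := by
    by_contra hc
    push Not at hc
    have h1 := Full.card_ball_le M (E := D') (q := 3) (T := j + 2) fun s hs hs' => hc s hs hs'
    have h2 : Fintype.card V ≤ #(ball G D (j + 2)) := by
      rw [← card_univ]
      exact card_le_card fun u _ => hcover u
    have h3 := M.card_par_add (j + 1)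
    rw [M.sel_zero hne hR, show j + 1 + 1 = j + 2 from rfl] at h3
    have h4' := h.alpha _ (M.par_ind (j + 1))
    have h5 := h.alpha _ (M.par_ind (j + 2))
    have h7 := h.card
    subst hn8
    omega
  obtain ⟨hi1, hij, hibad⟩ := Nat.find_spec hbad2
  set i := Nat.find hbad2 with hidef
  rcases h.clique_or_deep (q := 3) le_rfl (Or.inr rfl) hne hR hi1
      (L := rlayer G D i \ D') sdiff_subset hibad with ⟨E, hEs, hEc, hE⟩ | ⟨hdeep, hα2, -⟩
  · have hEl : E ⊆ rlayer G D i := hEs.trans sdiff_subset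
    have hi2 : 2 ≤ i := by
      by_contra hc
      exact beside_false h hn hD h4 hmax hE hEc ((show i = 1 by omega) ▸ hEl)
    exact three_false h hn hD hD' hE hk hD'c hEc hdis
      (disjoint_right.2 fun y hy hyD => by
        have := Full.rlayer_level (hEl hy) (show y ∈ rlayer G D 0 from hyD)
        omega)
      (disjoint_right.2 fun y hy => (mem_sdiff.1 (hEs hy)).2) hno fun x hx y hy e => by
        have := (Full.adj_level (show x ∈ rlayer G D 0 from hx) (hEl hy) e).1
        omega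
  have hfar : 2 ≤ aOn G (univ \ ball G D 3) := hα2.trans (Full.aOn_mono fun u hu =>
    mem_sdiff.2 ⟨mem_univ u, Full.not_mem_ball_of_lt (show 3 < i by omega) (mem_sdiff.1 hu).1⟩)
  by_cases hj : j = 2
  · refine far_false h hn8 hD hk hmax hD' hD'c (hj ▸ hD's) M (fun s hs hs' => ?_) hfar
    by_contra hc
    exact Nat.find_min hbad2 (show s < i by omega) ⟨hs, by omega, hc⟩
  -- the second clique is deep as well
  have hA2 := hstep fun s hs hs' => by
    by_contra hc
    exact Nat.find_min hbad (show s < j by omega) ⟨hs, by omega, hc⟩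
  obtain ⟨J, hJT, hJc, hJi⟩ := Full.exists_aOn G (univ \ ball G D 3)
  have hb : ∀ w ∈ M.par 2, w ∈ ball G D 2 := fun w hw => by
    obtain ⟨s, hs, -, hws⟩ := M.mem_par hw
    exact Full.ball_mono hs (Full.rlayer_subset_ball s (M.sub s hws))
  have h8 := h.alpha (M.par 2 ∪ J) fun a ha b hb' e => by
    rcases mem_union.1 ha with ha | ha <;> rcases mem_union.1 hb' with hb' | hb'
    · exact M.par_ind 2 a ha b hb' e
    · exact (mem_sdiff.1 (hJT hb')).2 (Full.adj_mem_ball (hb a ha) e)
    · exact (mem_sdiff.1 (hJT ha)).2 (Full.adj_mem_ball (hb b hb') e.symm)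
    · exact hJi a ha b hb' e
  rw [card_union_of_disjoint (disjoint_left.2 fun a ha ha' =>
    (mem_sdiff.1 (hJT ha')).2 (Full.ball_mono (show 2 ≤ 3 by omega) (hb a ha)))] at h8
  omega

/-- `R(C_8, K_n) ≤ 7 (n-1) + 1` for `n ≤ 8`. -/
theorem upper_eight {n : ℕ} (hn : n ≤ 8) (V : Type) [Fintype V] [DecidableEq V]
    (G : SimpleGraph V) [DecidableRel G.Adj] (hcard : (8 - 1) * (n - 1) + 1 ≤ Fintype.card V) :
    HasCycle G 8 ∨ ∃ s, G.IsNIndepSet n s :=
  Full.upper_of_ctx (by omega) (fun _ _ _ _ _ _ _ hn' _ h => refute_eight h hn') n hn V G hcard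

end Vale.Agent.P048.Small
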