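import Vale.Agent.P048.Full.Cover
import Vale.Agent.P048.AssemblyUpper
import Vale.Agent.P048.Small.Clique

/-!
P048, `m = 8`: short links between two cliques on at least four vertices.  Two disjoint links with
four inner vertices in all give `C_8`, and so does a path through one clique closed by the other.
-/

namespace Vale.Agent.P048.Small

open Finset
open Close (HasCycle)
open Full (Conflict Apart2 Covers Loss NbrIndep IsLink)

variable {V : Type*} [Fintype V] [DecidableEq V] {G : SimpleGraph V} {D D' : Finset V}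

/-- Two disjoint cliques on at least four vertices, no edge between them, no `C_8`. -/
structure Apart8 (G : SimpleGraph V) (D D' : Finset V) : Prop where
  noC : ¬ HasCycle G 8
  cl : G.IsClique (D : Set V)
  cl' : G.IsClique (D' : Set V)
  dis : Disjoint D D'
  four : 4 ≤ #D
  four' : 4 ≤ #D'
  apart : ∀ x ∈ D, ∀ y ∈ D', ¬ G.Adj x y

omit [Fintype V] [DecidableEq V] in
theorem Apart8.symm (h : Apart8 G D D') : Apart8 G D' D :=
  ⟨h.noC, h.cl', h.cl, h.dis.symm, h.four', h.four, fun y hy x hx e => h.apart x hx y hy e.symm⟩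

omit [Fintype V] in
/-- Two disjoint conflicts with different ends close a cycle. -/
theorem Apart8.close (h : Apart8 G D D') {x a b y x' a' b' y' : V}
    (c : Conflict G D D' x a b y) (c' : Conflict G D D' x' a' b' y') (hap : Apart2 a b a' b')
    (hx : x ≠ x') (hy : y ≠ y') : False := by
  have h4 := h.four
  have h4' := h.four'
  exact h.noC (Full.hasCycle_of_links h.cl h.cl' h.dis (by omega) (by omega) (by omega) c.isLink
    c'.isLink hx hy (Full.mid_disjoint hap)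
    (by have := Full.length_mid_le a b; have := Full.length_mid_le a' b'; omega))

/-- Two disjoint conflicts at one vertex with different ends in `D'` have one inner vertex each. -/
theorem Apart8.singles (h : Apart8 G D D') {x a b y a' b' y' : V}
    (c : Conflict G D D' x a b y) (c' : Conflict G D D' x a' b' y') (hap : Apart2 a b a' b')
    (hy : y ≠ y') : a = b ∧ a' = b' := by
  by_contra hne
  set M := Full.mid a b with hM
  set M' := Full.mid a' b' with hM'
  have l1 := c.isLink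
  have l2 := c'.isLink
  have hlen : 3 ≤ M.length + M'.length := by
    simp only [hM, hM', Full.mid]
    split_ifs with e e' <;> simp_all
  have hlen' : M.length + M'.length ≤ 4 := by
    rw [hM, hM']
    have := Full.length_mid_le a b; have := Full.length_mid_le a' b'; omega
  have hxM : x ∉ M := fun hv => (l1.off x hv).1 l1.fst
  have hxM' : x ∉ M' := fun hv => (l2.off x hv).1 l2.fst
  have hnd : (M.reverse ++ x :: M').Nodup := by
    rw [List.nodup_append', List.nodup_reverse, List.nodup_cons]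
    refine ⟨l1.nodup, ⟨hxM', l2.nodup⟩, fun v hv hv' => ?_⟩
    rw [List.mem_reverse] at hv
    rcases List.mem_cons.1 hv' with rfl | hv'
    exacts [hxM hv, Full.mid_disjoint hap v hv hv']
  have hoff : ∀ v ∈ M.reverse ++ x :: M', v ∉ D' := fun v hv => by
    simp only [List.mem_append, List.mem_reverse, List.mem_cons] at hv
    rcases hv with hv | rfl | hv
    exacts [(l1.off v hv).2, disjoint_left.1 h.dis l1.fst, (l2.off v hv).2]
  have hch : (y :: ((M.reverse ++ x :: M') ++ [y'])).IsChain G.Adj := by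
    rw [List.append_assoc, List.cons_append, ← List.cons_append, List.isChain_split]
    refine ⟨?_, l2.chain⟩
    have hr : (x :: (M ++ [y])).reverse.IsChain G.Adj := by
      rw [List.isChain_reverse]
      exact l1.chain.imp fun p q e => e.symm
    simpa using hr
  have h4 := h.four'
  exact h.noC (Assembly.hasCycle_of_hasC (hasC_of_arc (fun p hp q hq e => h.cl' hp hq e) l1.snd
    l2.snd hy _ (by simp) hnd hoff hch (by simp; omega) (by simp; omega)))

/-- Two disjoint conflicts at `x` with different ends in `D'`: every conflict starts at `x`. -/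
theorem Apart8.fan (h : Apart8 G D D') {x a₁ b₁ y₁ a₂ b₂ y₂ x' a b y : V}
    (c₁ : Conflict G D D' x a₁ b₁ y₁) (c₂ : Conflict G D D' x a₂ b₂ y₂)
    (hap : Apart2 a₁ b₁ a₂ b₂) (hy : y₁ ≠ y₂) (c : Conflict G D D' x' a b y) (hx : x' ≠ x) :
    False := by
  obtain ⟨e₁, e₂⟩ := h.singles c₁ c₂ hap hy
  subst e₁ e₂
  have hne : a₁ ≠ a₂ := hap.1
  by_cases k₁ : a = a₁
  · exact h.close (⟨c.fst, c₁.snd, c.offl, c₁.offr, c.adjl, c₁.adjr, Or.inl k₁⟩ :
      Conflict G D D' x' a a₁ y₁) c₂ ⟨k₁ ▸ hne, k₁ ▸ hne, hne, hne⟩ hx hy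
  by_cases k₂ : a = a₂
  · exact h.close (⟨c.fst, c₂.snd, c.offl, c₂.offr, c.adjl, c₂.adjr, Or.inl k₂⟩ :
      Conflict G D D' x' a a₂ y₂) c₁ ⟨k₁, k₁, hne.symm, hne.symm⟩ hx hy.symm
  by_cases k₃ : b = a₁
  · subst k₃
    exact h.close (⟨c.fst, c₁.snd, c.offl, c₁.offr, c.adjl, c₁.adjr, c.mid⟩ :
      Conflict G D D' x' a b y₁) c₂ ⟨k₂, k₂, hne, hne⟩ hx hy
  by_cases k₄ : b = a₂
  · subst k₄
    exact h.close (⟨c.fst, c₂.snd, c.offl, c₂.offr, c.adjl, c₂.adjr, c.mid⟩ :
      Conflict G D D' x' a b y₂) c₁ ⟨k₁, k₁, hne.symm, hne.symm⟩ hx hy.symm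
  by_cases hy₁ : y = y₁
  · exact h.close c c₂ ⟨k₂, k₂, k₄, k₄⟩ hx (hy₁ ▸ hy)
  · exact h.close c c₁ ⟨k₁, k₁, k₃, k₃⟩ hx hy₁

/-- Two disjoint conflicts with the same ends: all conflicts share one of them. -/
theorem Apart8.double (h : Apart8 G D D') {x y a₁ b₁ a₂ b₂ : V}
    (c₁ : Conflict G D D' x a₁ b₁ y) (c₂ : Conflict G D D' x a₂ b₂ y)
    (hap : Apart2 a₁ b₁ a₂ b₂) {u r s v : V} (k : Conflict G D D' u r s v) (hu : u ≠ x)
    {x₀ a' b' y' : V} (k' : Conflict G D D' x₀ a' b' y') (hy : y' ≠ y) : False := by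
  -- two disjoint conflicts, one at `x`, one of them ending at `y`
  have two : ∀ {r₁ s₁ w₁ r₂ s₂ w₂ : V}, Conflict G D D' u r₁ s₁ w₁ → Conflict G D D' x r₂ s₂ w₂ →
      Apart2 r₁ s₁ r₂ s₂ → (w₁ = y ∨ w₂ = y) → False := by
    intro r₁ s₁ w₁ r₂ s₂ w₂ q q' hq hw
    by_cases e : w₁ = w₂
    · subst e
      obtain rfl : w₁ = y := hw.elim id id
      exact h.symm.fan q.symm q'.symm ⟨hq.2.2.2, hq.2.2.1, hq.2.1, hq.1⟩ hu k'.symm hy
    · exact h.close q q' hq hu e
  by_cases e₁ : Apart2 r s a₁ b₁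
  · exact two k c₁ e₁ (Or.inr rfl)
  by_cases e₂ : Apart2 r s a₂ b₂
  · exact two k c₂ e₂ (Or.inr rfl)
  simp only [Apart2, not_and_or, not_not] at e₁ e₂
  have go : ∀ {ai bi aj bj : V}, Conflict G D D' x ai bi y → Conflict G D D' x aj bj y →
      Apart2 ai bi aj bj → (r = ai ∨ r = bi) → (s = aj ∨ s = bj) → False := by
    intro ai bi aj bj ci cj hij hr hs
    have p₁ : Conflict G D D' u r bi y := ⟨k.fst, ci.snd, k.offl, ci.offr, k.adjl, ci.adjr,
      by rcases hr with rfl | rfl; exacts [ci.mid, Or.inl rfl]⟩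
    have p₂ : Conflict G D D' x aj s v := ⟨cj.fst, k.snd, cj.offl, k.offr, cj.adjl, k.adjr,
      by rcases hs with rfl | rfl; exacts [Or.inl rfl, cj.mid]⟩
    refine two p₁ p₂ ?_ (Or.inl rfl)
    rcases hr with rfl | rfl <;> rcases hs with rfl | rfl
    exacts [⟨hij.1, hij.1, hij.2.2.1, hij.2.2.1⟩, ⟨hij.1, hij.2.1, hij.2.2.1, hij.2.2.2⟩,
      ⟨hij.2.2.1, hij.2.2.1, hij.2.2.1, hij.2.2.1⟩, ⟨hij.2.2.1, hij.2.2.2, hij.2.2.1, hij.2.2.2⟩]
  rcases e₁ with e | e | e | e <;> rcases e₂ with f | f | f | f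
  all_goals first
    | exact absurd (e.symm.trans f) hap.1
    | exact absurd (e.symm.trans f) hap.2.1
    | exact absurd (e.symm.trans f) hap.2.2.1
    | exact absurd (e.symm.trans f) hap.2.2.2
    | exact go c₁ c₂ hap (Or.inl e) (Or.inl f)
    | exact go c₁ c₂ hap (Or.inl e) (Or.inr f)
    | exact go c₁ c₂ hap (Or.inr e) (Or.inl f)
    | exact go c₁ c₂ hap (Or.inr e) (Or.inr f)
    | exact go c₂ c₁ hap.symm (Or.inl f) (Or.inl e)
    | exact go c₂ c₁ hap.symm (Or.inl f) (Or.inr e)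
    | exact go c₂ c₁ hap.symm (Or.inr f) (Or.inl e)
    | exact go c₂ c₁ hap.symm (Or.inr f) (Or.inr e)

/-- One vertex covers all short links. -/
theorem Apart8.exists_cover (h : Apart8 G D D') : ∃ z, Covers G D D' z := by
  classical
  by_contra hno
  push Not at hno
  have failc : ∀ z, ∃ x a b y, Conflict G D D' x a b y ∧ x ≠ z ∧ y ≠ z ∧ a ≠ z ∧ b ≠ z := by
    intro z
    have := hno z
    simp only [Covers, not_and_or] at this
    rcases this with h1 | h1
    · push Not at h1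
      obtain ⟨x, hx, y, hy, e, -⟩ := h1
      exact absurd e (h.apart x hx y hy)
    · push Not at h1
      obtain ⟨x, hx, y, hy, a, b, ha, hb, hxa, hyb, hab, h1, h2, h3, h4⟩ := h1
      exact ⟨x, a, b, y, ⟨hx, hy, ha, hb, hxa, hyb, hab⟩, h1, h2, h3, h4⟩
  obtain ⟨u₀, hu₀⟩ := card_pos.1 (show 0 < #D by have := h.four; omega)
  by_cases hT : ∃ x a b y x' a' b' y', Conflict G D D' x a b y ∧
      Conflict G D D' x' a' b' y' ∧ Apart2 a b a' b'
  · obtain ⟨x, a, b, y, x', a', b', y', c, c', hap⟩ := hT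
    by_cases hx : x = x'
    · subst hx
      by_cases hy : y = y'
      · subst hy
        obtain ⟨x₁, p, q, y₁, k, n1, -, -, -⟩ := failc x
        obtain ⟨x₂, p', q', y₂, k', -, n2, -, -⟩ := failc y
        exact h.double c c' hap k n1 k' n2
      · obtain ⟨x₁, p, q, y₁, k, n1, -, -, -⟩ := failc x
        exact h.fan c c' hap hy k n1
    · by_cases hy : y = y'
      · subst hy
        obtain ⟨x₁, p, q, y₁, k, -, n2, -, -⟩ := failc y
        exact h.symm.fan c.symm c'.symm ⟨hap.2.2.2, hap.2.2.1, hap.2.1, hap.1⟩ hx k.symm n2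
      · exact h.close c c' hap hx hy
  -- all conflicts meet: a star
  have hmeet : ∀ {x a b y x' a' b' y'}, Conflict G D D' x a b y → Conflict G D D' x' a' b' y' →
      a = a' ∨ a = b' ∨ b = a' ∨ b = b' := by
    intro x a b y x' a' b' y' c c'
    by_contra hne
    simp only [not_or] at hne
    exact hT ⟨x, a, b, y, x', a', b', y', c, c', hne⟩
  have single : ∀ {x a y}, Conflict G D D' x a a y → False := by
    intro x a y c
    obtain ⟨x₁, p, q, y₁, k, -, -, n3, n4⟩ := failc a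
    rcases hmeet c k with e | e | e | e
    exacts [n3 e.symm, n4 e.symm, n3 e.symm, n4 e.symm]
  obtain ⟨x, a, b, y, c, -⟩ := failc u₀
  obtain ⟨x₁, a₁, b₁, y₁, k₁, -, -, n1, n1'⟩ := failc a
  obtain ⟨x₂, a₂, b₂, y₂, k₂, -, -, n2, n2'⟩ := failc b
  have s1 : ∀ {v : V}, (∃ u ∈ D, G.Adj u v) → (∃ u ∈ D', G.Adj u v) → (v ∉ D ∧ v ∉ D') → False :=
    fun ⟨u, hu, huv⟩ ⟨u', hu', hu'v⟩ hv => single ⟨hu, hu', hv, hv, huv, hu'v, Or.inl rfl⟩
  rcases hmeet c k₁ with e | e | e | e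
  · exact n1 e.symm
  · exact n1' e.symm
  · exact s1 ⟨_, k₁.fst, k₁.adjl⟩ ⟨_, c.snd, e ▸ c.adjr⟩ k₁.offl
  rcases hmeet c k₂ with f | f | f | f
  · rcases hmeet k₁ k₂ with g | g | g | g
    · exact n1 (g.trans f.symm)
    · exact s1 ⟨_, k₁.fst, k₁.adjl⟩ ⟨_, k₂.snd, g ▸ k₂.adjr⟩ k₁.offl
    · exact n1' (g.trans f.symm)
    · exact n2' ((g.symm.trans e.symm))
  · exact s1 ⟨_, c.fst, c.adjl⟩ ⟨_, k₂.snd, f ▸ k₂.adjr⟩ c.offl
  · exact n2 f.symm
  · exact n2' f.symm

/-- Two such cliques give an independent set one short of their total. -/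
theorem Apart8.exists_indep (h : Apart8 G D D') (n₁ : NbrIndep G D) (n₂ : NbrIndep G D') :
    ∃ (I I' S : Finset V), S ⊆ I ∪ I' ∧ G.IsIndepSet (S : Set V) ∧ #D + #D' ≤ #S + 1 ∧
      (∀ w ∈ I, w ∉ D ∧ ∃ x ∈ D, G.Adj x w) ∧ (∀ w ∈ I', w ∉ D' ∧ ∃ y ∈ D', G.Adj y w) := by
  obtain ⟨z, hz⟩ := h.exists_cover
  have h4 := h.four
  have h4' := h.four'
  have hne : ∀ E : Finset V, 4 ≤ #E → (E \ {z}).Nonempty := fun E hE => card_pos.1 (by
    have := le_card_sdiff {z} E
    simp at this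
    omega)
  obtain ⟨I, hI, cI, mI⟩ := n₁ (D \ {z}) sdiff_subset (hne D h4)
  obtain ⟨I', hI', cI', mI'⟩ := n₂ (D' \ {z}) sdiff_subset (hne D' h4')
  obtain ⟨A, hA, B, hB, l, hx, d⟩ := hz.split (U := D \ {z}) (U' := D' \ {z}) sdiff_subset
    (by simp) sdiff_subset (by simp) hI hI' mI mI'
  refine ⟨I, I', A ∪ B, union_subset_union hA hB, fun p hp q hq hpq hadj => ?_, ?_,
    fun w hw => ?_, fun w hw => ?_⟩
  · simp only [coe_union, Set.mem_union, mem_coe] at hp hq
    rcases hp with hp | hp <;> rcases hq with hq | hq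
    · exact hI (hA hp) (hA hq) hpq hadj
    · exact (d p hp q hq).2 hadj
    · exact (d q hq p hp).2 hadj.symm
    · exact hI' (hB hp) (hB hq) hpq hadj
  · rw [card_union_of_disjoint (disjoint_left.2 fun v hv hv' => (d v hv v hv').1 rfl)]
    have e : ∀ E : Finset V, #E = #(E \ {z}) + #(E ∩ {z}) := fun E =>
      (card_sdiff_add_card_inter E {z}).symm
    have := e D
    have := e D'
    by_cases h1 : z ∈ D
    · have h2 : z ∉ D' := disjoint_left.1 h.dis h1
      have h3 : z ∉ I := fun hc => (mI z hc).1 h1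
      have h4 : z ∉ I' := fun hc => by
        obtain ⟨-, y, hy, hyz⟩ := mI' z hc
        exact h.apart z h1 y (mem_sdiff.1 hy).1 hyz.symm
      obtain ⟨rfl, rfl⟩ := hx h3 h4
      simp [h1, h2] at *; omega
    · by_cases h2 : z ∈ D'
      · have h4 : z ∉ I' := fun hc => (mI' z hc).1 h2
        have h3 : z ∉ I := fun hc => by
          obtain ⟨-, y, hy, hyz⟩ := mI z hc
          exact h.apart y (mem_sdiff.1 hy).1 z h2 hyz
        obtain ⟨rfl, rfl⟩ := hx h3 h4
        simp [h1, h2] at *; omega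
      · simp [h1, h2] at *; omega
  · obtain ⟨a, x, hx, e⟩ := mI w hw
    exact ⟨a, x, (mem_sdiff.1 hx).1, e⟩
  · obtain ⟨a, x, hx, e⟩ := mI' w hw
    exact ⟨a, x, (mem_sdiff.1 hx).1, e⟩

/-- Two disjoint cliques on at least four vertices lose at most two. -/
theorem exists_loss (noC : ¬ HasCycle G 8) (hD : G.IsClique (D : Set V))
    (hD' : G.IsClique (D' : Set V)) (hdis : Disjoint D D') (h4 : 4 ≤ #D) (h4' : 4 ≤ #D') :
    ∃ Z, Loss G D D' Z ∧ #(D ∩ Z) ≤ 1 ∧ #(D' ∩ Z) ≤ 1 := by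
  have one : ∀ (E : Finset V) (z : V), #(E ∩ {z}) ≤ 1 := fun E z =>
    (card_le_card inter_subset_right).trans (card_singleton z).le
  by_cases hap : ∀ x ∈ D, ∀ y ∈ D', ¬ G.Adj x y
  · obtain ⟨z, hz⟩ := (⟨noC, hD, hD', hdis, h4, h4', hap⟩ : Apart8 G D D').exists_cover
    exact ⟨{z}, hz.loss hdis, one D z, one D' z⟩
  push Not at hap
  obtain ⟨x, hx, y, hy, hxy⟩ := hap
  -- every edge and every conflict shares an end with every edge
  have meet : ∀ {x' M y' x'' y''}, IsLink G D D' x' M y' → M.length ≤ 2 → x'' ∈ D → y'' ∈ D' →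
      G.Adj x'' y'' → x' = x'' ∨ y' = y'' := by
    intro x' M y' x'' y'' hl hM hx'' hy'' he
    by_contra hne
    simp only [not_or] at hne
    exact noC (Full.hasCycle_of_links hD hD' hdis (by omega) (by omega) (by omega) hl
      (M₂ := []) ⟨hx'', hy'', by simp, by simp, by simp [he]⟩ hne.1 hne.2 (by simp) (by simp; omega))
  have edge : ∀ {x' y' x'' y''}, x' ∈ D → y' ∈ D' → G.Adj x' y' → x'' ∈ D → y'' ∈ D' →
      G.Adj x'' y'' → x' = x'' ∨ y' = y'' := fun hx' hy' he =>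
    meet (M := []) ⟨hx', hy', by simp, by simp, by simp [he]⟩ (by simp)
  by_cases hl : ∃ y₁ ∈ D', G.Adj x y₁ ∧ y₁ ≠ y
  · obtain ⟨y₁, hy₁, hxy₁, hne⟩ := hl
    refine ⟨{x}, Covers.loss ⟨fun x' hx' y' hy' he => Or.inl ?_,
      fun x' hx' y' hy' w w' hw hw' hxw hyw hc => Or.inl ?_⟩ hdis, one D x, one D' x⟩
    · by_contra h
      have h1 := (edge hx' hy' he hx hy hxy).resolve_left h
      have h2 := (edge hx' hy' he hx hy₁ hxy₁).resolve_left h
      exact hne (h2.symm.trans h1)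
    · by_contra h
      have hl := Full.isLink_mid hx' hy' hw hw' hxw hyw hc
      have h1 := (meet hl (Full.length_mid_le _ _) hx hy hxy).resolve_left h
      have h2 := (meet hl (Full.length_mid_le _ _) hx hy₁ hxy₁).resolve_left h
      exact hne (h2.symm.trans h1)
  by_cases hr : ∃ x₁ ∈ D, G.Adj x₁ y ∧ x₁ ≠ x
  · obtain ⟨x₁, hx₁, hxy₁, hne⟩ := hr
    refine ⟨{y}, Covers.loss ⟨fun x' hx' y' hy' he => Or.inr ?_,
      fun x' hx' y' hy' w w' hw hw' hxw hyw hc => Or.inr (Or.inl ?_)⟩ hdis, one D y, one D' y⟩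
    · by_contra h
      have h1 := (edge hx' hy' he hx hy hxy).resolve_right h
      have h2 := (edge hx' hy' he hx₁ hy hxy₁).resolve_right h
      exact hne (h2.symm.trans h1)
    · by_contra h
      have hl := Full.isLink_mid hx' hy' hw hw' hxw hyw hc
      have h1 := (meet hl (Full.length_mid_le _ _) hx hy hxy).resolve_right h
      have h2 := (meet hl (Full.length_mid_le _ _) hx₁ hy hxy₁).resolve_right h
      exact hne (h2.symm.trans h1)
  -- a single edge
  push Not at hl hr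
  have hxD' : x ∉ D' := disjoint_left.1 hdis hx
  have hyD : y ∉ D := disjoint_right.1 hdis hy
  have i₁ : D ∩ {x, y} = {x} := by
    ext v; simp only [mem_inter, mem_insert, mem_singleton]
    exact ⟨fun ⟨hv, e⟩ => e.resolve_right fun e' => hyD (e' ▸ hv), fun e => ⟨e ▸ hx, Or.inl e⟩⟩
  have i₂ : D' ∩ {x, y} = {y} := by
    ext v; simp only [mem_inter, mem_insert, mem_singleton]
    exact ⟨fun ⟨hv, e⟩ => e.resolve_left fun e' => hxD' (e' ▸ hv), fun e => ⟨e ▸ hy, Or.inr e⟩⟩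
  refine ⟨{x, y}, fun U hU U' hU' I I' _ _ hIn hIn' =>
    ⟨I, subset_rfl, I', subset_rfl, by simp [i₁, i₂]; omega, fun p hp q hq => ?_⟩, by simp [i₁],
    by simp [i₂]⟩
  obtain ⟨hpD, x', hx', hxp⟩ := hIn p hp
  obtain ⟨hqD, y', hy', hyq⟩ := hIn' q hq
  obtain ⟨hx'D, hx'Z⟩ := mem_sdiff.1 (hU hx')
  obtain ⟨hy'D, hy'Z⟩ := mem_sdiff.1 (hU' hy')
  simp only [mem_insert, mem_singleton, not_or] at hx'Z hy'Z
  have off : ∀ {x'' y''}, x'' ∈ D → y'' ∈ D' → G.Adj x'' y'' → x'' = x ∧ y'' = y := by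
    intro x'' y'' h1 h2 he
    rcases edge h1 h2 he hx hy hxy with rfl | rfl
    exacts [⟨rfl, hl y'' h2 he⟩, ⟨hr x'' h1 he, rfl⟩]
  have hp' : p ∉ D' := fun h => hx'Z.1 (off hx'D h hxp).1
  have hq' : q ∉ D := fun h => hy'Z.2 (off h hy'D hyq.symm).2
  have key : ¬ (p = q ∨ G.Adj p q) := fun hc =>
    (meet (Full.isLink_mid hx'D hy'D ⟨hpD, hp'⟩ ⟨hq', hqD⟩ hxp hyq hc)
      (Full.length_mid_le _ _) hx hy hxy).elim hx'Z.1 hy'Z.2
  exact not_or.1 key

end Vale.Agent.P048.Small
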